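import Vale.Agent.P257.H545.CmpP
import Vale.Agent.P257.H420.CmpI

/-!
# P257, package A5 (helper545): the comparison (helper93, helper420)
-/

namespace Vale.Agent.P257.H545

open Vale.Agent.P251 Vale.Agent.P251.F Vale.Agent.P257.H93

theorem infCmp (p : ℕ) [Fact p.Prime] : InfCmp p where
  inj0 _ hd hf := H420.fI_inj_zero _ hd hf
  inj hz hd _ hy hyz := H420.fI_inj hz hd hy hyz
  surj hc hdc := by
    obtain ⟨z, hz, hdz, hf⟩ := H420.fI_surj hc hdc
    exact ⟨z, 0, hz, isWtP_zero _, hdz, by rw [hf, map_zero, add_zero]⟩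

end Vale.Agent.P257.H545
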