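import Vale.Agent.P257.H93.FP
import Vale.Agent.P257.H604.Log
import Vale.Agent.P257.H604.Xi
import Vale.Agent.P257.H134.Cochains

/-!
# P257, package A5 (helper545): images of `t_1`, `b` and `ξ` in `CobP`

* `fP_t : fP p 1 t = hP p 1 0` if `IsT1 p t`;
* `fP_bcls : fP p 2 (bcls p t) = bP p 1 0`;
* `fP_xi : fP p 1 ξ = hP p 1 4` if `d v_5 - ξ v_4 ∈ IC p 4`.
-/

namespace Vale.Agent.P257.H545

open Vale.Agent.P251 Vale.Agent.P251.F Vale.Agent.P257.H314
  Vale.Agent.P257.H93 Vale.Agent.P217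
open Vale.Agent.P251.I (IsT1 bcls)

section series

variable {W : Type} [CommRing W]

lemma exists_coeff_subst {f : PowerSeries W} (h0 : PowerSeries.coeff 0 f = 0)
    (h1 : PowerSeries.coeff 1 f = 1) {G : PowerSeries W}
    (hG : PowerSeries.constantCoeff G = 0) (p : ℕ) (n : ℕ) :
    ∃ u : W, PowerSeries.coeff n (PowerSeries.subst ((p : PowerSeries W) * G) f : PowerSeries W) =
      p * PowerSeries.coeff n G + p ^ 2 * u := by
  have hs : PowerSeries.HasSubst ((p : PowerSeries W) * G) := by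
    apply PowerSeries.HasSubst.of_constantCoeff_zero
    change PowerSeries.constantCoeff ((p : PowerSeries W) * G) = 0
    rw [map_mul, hG, mul_zero]
  obtain ⟨h, hh⟩ : (PowerSeries.X : PowerSeries W) ^ 2 ∣ f - PowerSeries.X := by
    rw [PowerSeries.X_pow_dvd_iff]
    intro m hm
    rcases m with _ | _ | m
    · rw [map_sub, h0, PowerSeries.coeff_zero_X, sub_zero]
    · rw [map_sub, h1, PowerSeries.coeff_one_X, sub_self]
    · omega
  have hf : f = PowerSeries.X + PowerSeries.X ^ 2 * h := by rw [← hh]; ring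
  refine ⟨PowerSeries.coeff n (G ^ 2 * PowerSeries.subst ((p : PowerSeries W) * G) h), ?_⟩
  have hpC : (p : PowerSeries W) = PowerSeries.C (p : W) := (map_natCast _ _).symm
  conv_lhs => rw [hf]
  rw [PowerSeries.subst_add hs, PowerSeries.subst_mul hs, PowerSeries.subst_pow hs,
    PowerSeries.subst_X hs, map_add, hpC, PowerSeries.coeff_C_mul, mul_pow, ← map_pow, mul_assoc,
    PowerSeries.coeff_C_mul]

lemma exists_vv_one (p : ℕ) {f : InvSeries W} (hf : f ∈ strict W) :
    ∃ u : W, vv p 1 (f • addLaw W) = p * PowerSeries.coeff p (f⁻¹).val + p ^ 2 * u := by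
  rw [vv, multSeries_smul_subst, H604.multSeries_addLaw]
  have h1 : (PowerSeries.subst (f⁻¹).val ((p : PowerSeries W) * PowerSeries.X) : PowerSeries W) =
      (p : PowerSeries W) * (f⁻¹).val := by
    rw [PowerSeries.subst_mul (f⁻¹).hs, PowerSeries.subst_X (f⁻¹).hs]
    congr 1
    have hpC : (p : PowerSeries W) = PowerSeries.C (p : W) := (map_natCast _ _).symm
    rw [hpC, PowerSeries.subst_C]
    rfl
  rw [h1, pow_one]
  refine exists_coeff_subst ?_ (mem_strict.1 hf) (f⁻¹).cc p p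
  rw [PowerSeries.coeff_zero_eq_constantCoeff_apply]
  exact f.cc

end series

section

variable {p : ℕ} [hp : Fact p.Prime]

/-- the chain `addLaw → f • addLaw` -/
noncomputable def ch1 {W : Type} [CommRing W] (f : strict W) : Chain Laz 1 W where
  pt := Laz.lift (addLaw W)
  g i := if i = 0 then 1 else f
  strict i := by
    split_ifs
    · exact one_mem _
    · exact f.2
  zero := rfl

theorem ch1_map {W B : Type} [CommRing W] [CommRing B] (φ : W →+* B) (f : strict W) :
    (ch1 f).map φ = ch1 (smapH φ f) := by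
  ext1
  · change φ.comp (Laz.lift (addLaw W)) = Laz.lift (addLaw B)
    apply Laz.equiv.injective
    change Laz.univ.map _ = Laz.univ.map _
    rw [← Law.map_map, Laz.univ_map_lift, Laz.univ_map_lift, map_addLaw]
  · funext i
    change InvSeries.map φ (if i = 0 then 1 else f) = if i = 0 then 1 else _
    split_ifs
    · exact map_one _
    · rfl

omit hp in
theorem ev_ch1_d {W : Type} [CommRing W] (f : strict W) (i : ℕ) :
    Cob.ev (ch1 f) (Cob.d 0 (MvPolynomial.C (Laz.v p i))) =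
      vv p i ((f : InvSeries W) • addLaw W) - vv p i (addLaw W) := by
  have h1 : ((Cob.univ Laz 1).g 1).map (Cob.ev (ch1 f)) = (f : InvSeries W) := by
    have := congrArg (fun c => c.g 1) (Cob.univ_map_ev (ch1 f))
    exact this
  have h2 : (Laz.univ.map (MvPolynomial.C : Laz →+* Cob Laz 1)).map (Cob.ev (ch1 f)) =
      addLaw W := by
    rw [Law.map_map]
    have : (Cob.ev (ch1 f)).comp MvPolynomial.C = Laz.lift (addLaw W) :=
      RingHom.ext fun a => Cob.ev_C _ _
    rw [this, Laz.univ_map_lift]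
  rw [H604.d_v_eq, map_sub, ← vv_map, InvSeries.map_smul, h1, h2]
  congr 1
  rw [Laz.map_v, ← vv_map, h2]

/-- every strict series lifts to a torsion free ring -/
theorem exists_lift_strict {B : Type} [CommRing B] (f : strict B) :
    ∃ f' : strict (MvPolynomial B ℤ),
      smapH (MvPolynomial.eval₂Hom (Int.castRingHom B) id) f' = f := by
  refine ⟨⟨InvSeries.ofCoeff (fun n => if n = 0 then 1 else MvPolynomial.X ((f : InvSeries B).c n))
    (by simp), ?_⟩, ?_⟩
  · rw [mem_strict, InvSeries.c_ofCoeff, if_pos rfl]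
  · apply Subtype.ext
    apply InvSeries.ext_c
    intro n
    change (InvSeries.map _ (InvSeries.ofCoeff _ _)).c n = _
    rw [InvSeries.c_map, InvSeries.c_ofCoeff]
    rcases Nat.eq_zero_or_pos n with rfl | h
    · rw [if_pos rfl, map_one]
      exact (mem_strict.1 f.2).symm
    · rw [if_neg h.ne']
      simp

/-- the value of `t_1` -/
theorem ev_ch1_t {t : Cob Laz 1} (ht : IsT1 p t) {B : Type} [CommRing B] (hB : (p : B) = 0)
    (f : strict B) : Cob.ev (ch1 f) t = PowerSeries.coeff p ((f : InvSeries B)⁻¹).val := by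
  -- a torsion free lift
  obtain ⟨f', rfl⟩ := exists_lift_strict f
  set φ : MvPolynomial B ℤ →+* B := MvPolynomial.eval₂Hom (Int.castRingHom B) id with hφ
  obtain ⟨u, hu⟩ := exists_vv_one p f'.2
  have h1 := congrArg (Cob.ev (ch1 f')) ht
  rw [ev_ch1_d, hu] at h1
  have h2 : vv p 1 (addLaw (MvPolynomial B ℤ)) = 0 := by
    rw [vv, H604.multSeries_addLaw]
    have hpC : (p : PowerSeries (MvPolynomial B ℤ)) = PowerSeries.C (p : MvPolynomial B ℤ) :=
      (map_natCast _ _).symm
    rw [hpC, PowerSeries.coeff_C_mul, PowerSeries.coeff_X, if_neg, mul_zero]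
    rw [pow_one]
    exact hp.out.one_lt.ne'
  rw [h2, sub_zero, map_zsmul, zsmul_eq_mul, Int.cast_natCast] at h1
  have h3 : Cob.ev (ch1 f') t = PowerSeries.coeff p ((f' : InvSeries (MvPolynomial B ℤ))⁻¹).val +
      p * u := by
    have h0 : (p : MvPolynomial B ℤ) ≠ 0 := Nat.cast_ne_zero.mpr hp.out.ne_zero
    apply mul_left_cancel₀ h0
    rw [h1]
    ring
  rw [← ch1_map, Cob.ev_map, h3, map_add, map_mul, map_natCast, hB, zero_mul, add_zero]
  change φ _ = PowerSeries.coeff p ((InvSeries.map φ (f' : InvSeries _))⁻¹).val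
  rw [← map_inv, InvSeries.map_val, PowerSeries.coeff_map]

/-- the chain of two additive automorphisms -/
theorem mkC_eq_ch1 {B : Type} [CommRing B] (g : ℕ → addS B) :
    mkC (Laz.lift (addLaw B)) 1 (fun k => (g k : strict B)) =
      ch1 ((g 1 * (g 0)⁻¹ : addS B) : strict B) := by
  ext1
  · rw [mkC_pt]
    exact act_lift_addLaw (g 0).2
  · funext i
    rw [mkC_g]
    change _ = if i = 0 then 1 else _
    split_ifs with h
    · subst h
      exact mul_inv_cancel _
    · have : i = 1 := Fin.eq_one_of_ne_zero i h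
      subst this
      rfl

theorem fP_t {t : Cob Laz 1} (ht : IsT1 p t) : fP p 1 t = H134.hP p 1 0 := by
  apply ext_evG
  intro B _ _ g
  rw [evG_fP, mkC_eq_ch1, ev_ch1_t ht FpA.cast, H134.evG_hP, pow_zero, pow_one, H134.co, tc,
    pow_one]
  congr 3
  simp

theorem fP_bcls {t : Cob Laz 1} (ht : IsT1 p t) : fP p 2 (bcls p t) = H134.bP p 1 0 := by
  have h1 : fP p 1 t = MvPolynomial.X (0, 0) := by
    rw [fP_t ht, H134.hP, pow_zero, pow_one]
    rfl
  have h2 : (Finset.HasAntidiagonal.antidiagonal 1 : Finset (ℕ × ℕ)) = {(0, 1), (1, 0)} := by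
    decide
  have h3 : ∀ x : ℕ × ℕ → CobP p 2, H134.gam p {(0, 1), (1, 0)} x =
      H134.cp p (x (0, 1)) (x (1, 0)) := fun x => H134.gam_pair p (by decide) x
  rw [bcls, map_sum, H134.bP, H134.bb, h2, h3]
  simp only [pow_zero, pow_one, H134.tt_zero, one_pow, one_mul, mul_one, add_zero]
  rw [H134.cp_comm p, H134.cp]
  refine Finset.sum_congr rfl fun i _ => ?_
  rw [map_zsmul, zsmul_eq_mul, Int.cast_natCast]
  congr 1
  refine (fP_cup (a := 1) (b := 1) _ _).trans ?_
  rw [map_pow, map_pow, h1, cupP, map_pow, map_pow, MvPolynomial.rename_X, MvPolynomial.rename_X]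
  rfl

theorem co_inv_one {B : Type} [CommRing B] [FpA p B] (g : addS B) :
    H134.co (p := p) g⁻¹ 1 = - H134.co (p := p) g 1 := by
  have h1 := congrFun (H134.co_mul (p := p) g g⁻¹) 1
  have h2 : (Finset.HasAntidiagonal.antidiagonal 1 : Finset (ℕ × ℕ)) = {(0, 1), (1, 0)} := by
    decide
  have h3 : H134.co (p := p) (1 : addS B) 1 = 0 := tc_one_succ 0
  rw [mul_inv_cancel, h3, H134.comp, h2, Finset.sum_pair (by decide), H134.co_zero,
    H134.co_zero, pow_zero, pow_one, one_mul, one_pow, mul_one] at h1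
  exact eq_neg_of_add_eq_zero_left h1.symm

/-- the value of `ξ` -/
theorem fP_xi {h : ℕ} (hh : 1 ≤ h) (hp2 : p ≠ 2) {ξ : Cob Laz 1}
    (hξ : Cob.d 0 (MvPolynomial.C (Laz.v p (h + 1)) : Cob Laz 0) -
      ξ * MvPolynomial.C (Laz.v p h) ∈ IC p h 1) : fP p 1 ξ = H134.hP p 1 h := by
  obtain ⟨ξ₀, -, h1, -, h2⟩ := H604.exists_xi (p := p) hh
  have h3 : ξ - ξ₀ ∈ IC p h 1 := by
    refine mem_map_C_I_of_v_mul p le_rfl ?_
    have h4 := sub_mem h1 hξ
    have h5 : MvPolynomial.C (Laz.v p h) * (ξ - ξ₀) =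
        Cob.d 0 (MvPolynomial.C (Laz.v p (h + 1)) : Cob Laz 0) -
          ξ₀ * MvPolynomial.C (Laz.v p h) -
        (Cob.d 0 (MvPolynomial.C (Laz.v p (h + 1)) : Cob Laz 0) -
          ξ * MvPolynomial.C (Laz.v p h)) := by ring
    rw [h5]
    exact h4
  have h4 : fP p 1 ξ = fP p 1 ξ₀ := by
    rw [← sub_eq_zero, ← map_sub]
    exact fP_IC h3
  rw [h4]
  apply ext_evG
  intro B _ _ g
  have hB : (p : B) = 0 := FpA.cast
  have hv : ∀ i, Laz.lift (addLaw B) (Laz.v p i) = 0 := fun i => by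
    rw [Laz.lift_v, H604.vv_addLaw hB]
  set f : strict B := ((g 1 * (g 0)⁻¹ : addS B) : strict B) with hf
  rw [evG_fP, mkC_eq_ch1, H604.ev_of_kill h2 (ch1 f)]
  · change (Laz.lift (addLaw B) (Laz.v p h)) ^ (p - 1) * _ - _ = _
    have hp1 : p - 1 ≠ 0 := by
      have := hp.out.two_le
      omega
    rw [hv, zero_pow hp1, zero_mul, zero_sub, H134.evG_hP]
    have h5 : ((ch1 f).g 1).c (p - 1) = H134.co (p := p) (g 1 * (g 0)⁻¹) 1 := by
      rw [H134.co, tc_eq_c, pow_one]
      rfl
    have h6 : g 0 * (g 1)⁻¹ = (g 1 * (g 0)⁻¹)⁻¹ := by simp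
    rw [h5, h6, co_inv_one]
    have ho : Odd (p ^ h) := (hp.out.odd_of_ne_two hp2).pow
    rw [ho.neg_pow]
  · intro a ha
    change Laz.lift (addLaw B) a = 0
    have h5 : Laz.I p h ≤ RingHom.ker (Laz.lift (addLaw B)) := by
      rw [Laz.I, Ih, Ideal.span_le]
      rintro _ ⟨i, -, rfl⟩
      exact hv i
    exact h5 ha
  · intro k hk hkp
    change (f : InvSeries B).c k = 0
    refine isAdd_val (p := p) (g 1 * (g 0)⁻¹) k ?_
    rintro ⟨j, hj⟩
    rcases j with _ | j
    · rw [pow_zero] at hj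
      omega
    · have : p ≤ p ^ (j + 1) := Nat.le_self_pow (Nat.succ_ne_zero j) p
      omega

end

end Vale.Agent.P257.H545
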