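import Vale.Agent.P257.H919.Inst
import Vale.Agent.P257.H93.Wt
import Vale.Agent.P257.H327.Mon

/-!
# P257, package A5 (helper545): vanishing groups of `CobP`; the May bound (helper919)
-/

namespace Vale.Agent.P257.H545

open Vale.Agent.P251 Vale.Agent.P251.F Vale.Agent.P257.H93

variable {p : ℕ} [Fact p.Prime]

/-- `H^s(CobP)_w = 0`. -/
def VanP (p : ℕ) [Fact p.Prime] : ℕ → ℤ → Prop
  | 0, w => ∀ c : CobP p 0, IsWtP p 0 w c → dP 0 c = 0 → c = 0
  | s + 1, w => ∀ c : CobP p (s + 1), IsWtP p (s + 1) w c → dP (s + 1) c = 0 →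
      ∃ c' : CobP p s, IsWtP p s w c' ∧ dP s c' = c

/-- `VanP` in terms of helper93's cochains. -/
theorem vanP_iff {s : ℕ} {w : ℤ} : VanP p s w ↔ Van (pt (addG p)) (triv (addG p)) s w := by
  cases s with
  | zero =>
    rw [van_zero]
    constructor
    · intro h F hF hd
      have h1 := h (toP F) (isWt_toP.2 hF) (by
        apply ofP_injective
        rw [ofP_dP, ofP_toP, hd, ofP_zero])
      rw [← ofP_toP F, h1, ofP_zero]
    · intro h c hc hd
      have h1 := h (ofP c) hc.ofP (by rw [← ofP_dP, hd, ofP_zero])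
      apply ofP_injective
      rw [h1, ofP_zero]
  | succ s =>
    rw [van_succ]
    constructor
    · intro h F hF hd
      obtain ⟨y, hy, hdy⟩ := h (toP F) (isWt_toP.2 hF) (by
        apply ofP_injective
        rw [ofP_dP, ofP_toP, hd, ofP_zero])
      refine ⟨ofP y, hy.ofP, ?_⟩
      rw [← ofP_dP, hdy, ofP_toP]
    · intro h c hc hd
      obtain ⟨E, hE, hdE⟩ := h (ofP c) hc.ofP (by rw [← ofP_dP, hd, ofP_zero])
      refine ⟨toP E, isWt_toP.2 hE, ?_⟩
      apply ofP_injective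
      rw [ofP_dP, ofP_toP, hdE]

/-- The bound, in the form of `FactsP`. -/
theorem boundP (s W : ℕ) (h : ∀ x : H327.Mon, x.s = s → x.W p ≠ W) :
    VanP p s (((p : ℤ) - 1) * W) := by
  rw [vanP_iff]
  refine H919.bound_addG fun x hx hW => h x hx ?_
  have hp := (Fact.out : p.Prime).one_lt
  have h1 : ((p - 1 : ℕ) : ℤ) = (p : ℤ) - 1 := by rw [Nat.cast_sub hp.le, Nat.cast_one]
  rw [Nat.cast_mul, h1] at hW
  have h2 : ((p : ℤ) - 1) ≠ 0 := by omega
  exact_mod_cast mul_left_cancel₀ h2 hW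

end Vale.Agent.P257.H545
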