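import Vale.Agent.P257.H545.Final
import Vale.Agent.P257.H545.InfP
import Vale.Agent.P257.H545.VanP
import Vale.Agent.P257.H545.T1P

/-!
# P257, package A5 (helper545): existence of `V(4)`, with the cobar complex `CobP`

`exists_V4P`: `V(4)` exists if `p ≥ 11`, from the facts `FactsP p` on the cohomology
of `CobP`, the relation `α₁ β₁^p ≡ 0` modulo `p` and the `k = 1` step.
-/

open CategoryTheory MonoidalCategory Limits Pretriangulated

set_option linter.unusedSectionVars false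

universe v u

namespace Vale.Agent.P257.H545

open Vale.Agent.P251 Vale.Agent.P251.T Vale.Agent.P251.F Vale.Agent.P257.H314
  Vale.Agent.P257.H712 Vale.Agent.P257.H93
open Vale.Agent.P251.I (IsT1 bcls MUData)
open Vale.Agent.P251.S hiding IC

/-- Right multiplication by `b` is onto. -/
def OntoP (p : ℕ) [Fact p.Prime] (b : CobP p 2) (v : ℤ) (s : ℕ) (w : ℤ) : Prop :=
  ∀ c : CobP p (s + 2), IsWtP p (s + 2) (w + v) c → dP (s + 2) c = 0 →
    ∃ (c₀ : CobP p s) (e : CobP p (s + 1)), IsWtP p s w c₀ ∧ IsWtP p (s + 1) (w + v) e ∧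
      dP s c₀ = 0 ∧ c = cupP (a := s) (b := 2) c₀ b + dP (s + 1) e

/-- Right multiplication by `η` is injective. -/
def InjP (p : ℕ) [Fact p.Prime] (η : CobP p 1) (v : ℤ) (s : ℕ) (w : ℤ) : Prop :=
  ∀ T : CobP p (s + 1), IsWtP p (s + 1) w T → dP (s + 1) T = 0 →
    ∀ B : CobP p (s + 1), IsWtP p (s + 1) (w + v) B →
      dP (s + 1) B = cupP (a := s + 1) (b := 1) T η → ∃ y : CobP p s, IsWtP p s w y ∧ dP s y = T

/-- The facts on the cohomology of `CobP` used in the construction of `V(4)`. -/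
structure FactsP (p : ℕ) [Fact p.Prime] : Prop where
  /-- multiplication by `b_{1,0}` onto the group of the `p`-th target -/
  kappa_onto : ∀ j : ℕ, j + p + 3 ≤ p ^ 2 →
    OntoP p (H134.bP p 1 0) ((p : ℤ) * (p - 1)) (5 + 2 * j)
      (((p : ℤ) - 1) * (2 * p ^ 2 + 4 * p + 1 + p * j))
  /-- multiplications by `b_{1,1}` -/
  alpha_step1 : ∀ j : ℕ, j + 3 ≤ p → VanP p (5 + 2 * j) (((p : ℤ) - 1) * (2 * p ^ 2 + 3 * p + 3 +
    p ^ 2 * j)) → VanP p (5 + 2 * (j + 1)) (((p : ℤ) - 1) * (2 * p ^ 2 + 3 * p + 3 +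
    p ^ 2 * ((j + 1 : ℕ) : ℤ)))
  /-- multiplications by `b_{1,0}` -/
  alpha_step0 : ∀ j : ℕ, j + 3 ≤ p → VanP p (2 * p + 1 + 2 * j) (((p : ℤ) - 1) * (p ^ 3 + 3 * p + 3 +
    p * j)) → VanP p (2 * p + 1 + 2 * (j + 1)) (((p : ℤ) - 1) * (p ^ 3 + 3 * p + 3 +
    p * ((j + 1 : ℕ) : ℤ)))
  /-- multiplications by `b_{1,0}` -/
  gamma_step : ∀ j : ℕ, j + 2 * p + 3 ≤ p ^ 2 → VanP p (7 + 2 * j) (((p : ℤ) - 1) *
    (3 * p ^ 2 + 4 * p + p * j)) → VanP p (7 + 2 * (j + 1)) (((p : ℤ) - 1) *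
    (3 * p ^ 2 + 4 * p + p * ((j + 1 : ℕ) : ℤ)))
  /-- the group `α` -/
  alpha : VanP p 5 (((p : ℤ) - 1) * (2 * p ^ 2 + 3 * p + 3))
  /-- the group `β` -/
  beta : VanP p 6 (((p : ℤ) - 1) * (2 * p ^ 2 + 4 * p + 2))
  /-- the group `γ` -/
  gamma : VanP p 7 (((p : ℤ) - 1) * (3 * p ^ 2 + 4 * p))
  /-- `δ`: the multiplication by `h_{1,4}` is injective -/
  delta : InjP p (H134.hP p 1 4) (((p : ℤ) - 1) * p ^ 4) (2 * (p - 1))
    (((p : ℤ) - 1) * (Wn p 4 + 1))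

theorem van_iff {p : ℕ} [Fact p.Prime] (s : ℕ) (w : ℤ) :
    (cmpP (infCmp p)).Van s w ↔ VanP p s w := by
  cases s <;> rfl

theorem FactsP.facts {p : ℕ} [Fact p.Prime] (F : FactsP p) :
    (cmpP (infCmp p)).Facts (H134.bP p 1 0) (H134.hP p 1 4) where
  bound s W h := (van_iff _ _).2 (boundP s W h)
  kappa_onto := F.kappa_onto
  alpha_step1 j hj h := (van_iff _ _).2 (F.alpha_step1 j hj ((van_iff _ _).1 h))
  alpha_step0 j hj h := (van_iff _ _).2 (F.alpha_step0 j hj ((van_iff _ _).1 h))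
  gamma_step j hj h := (van_iff _ _).2 (F.gamma_step j hj ((van_iff _ _).1 h))
  alpha := (van_iff _ _).2 F.alpha
  beta := (van_iff _ _).2 F.beta
  gamma := (van_iff _ _).2 F.gamma
  delta := F.delta

theorem FactsP.algStep1 {p : ℕ} [Fact p.Prime] (F : FactsP p) (hp : 11 ≤ p) : AlgStep1 p :=
  F.facts.algStep1 hp fun _ _ hξ => Or.inl (fP_xi (by norm_num) (by omega) hξ)

variable {T : Type u} [Category.{v} T] [Preadditive T] [HasZeroObject T]
    [HasShift T ℤ] [∀ n : ℤ, (shiftFunctor T n).Additive] [Pretriangulated T]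
    [MonoidalCategory T] [SymmetricCategory T] [TensorTriangulated T] [HasCoproducts.{0} T]
    [MonoidalClosed T] [IsTriangulated T] [HasProducts.{0} T] [StableCat T]
    {D : MUData T} (U : UnitCof D.R) {p : ℕ} [Fact p.Prime] {C₀ : T} {iC₀ : 𝟙_ T ⟶ C₀}

/-- **Existence of `V(4)`** from the facts on the cohomology of `CobP`, the Toda relation and the
`k = 1` step. -/
theorem exists_V4P (hp : 11 ≤ p) {δ : C₀ ⟶ (𝟙_ T)⟦(1 : ℤ)⟧}
    (hC : Triangle.mk ((p : ℤ) • 𝟙 (𝟙_ T)) iC₀ δ ∈ distTriang T)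
    (F : FactsP p) (hII : TodaRel p D U)
    (hS : AlgStep1 p → ∀ (V : T) (i : 𝟙_ T ⟶ V), IsST D p iC₀ 4 i → Step1 p U i) :
    ∃ (V : T) (i : 𝟙_ T ⟶ V), IsST D p iC₀ 5 i :=
  exists_V4 U hp hC F.facts (fun _ ht => Or.inl (fP_bcls ht)) hII (hS (F.algStep1 hp))

end Vale.Agent.P257.H545
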