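import Vale.Agent.P257.H545.Facts
import Vale.Agent.P257.H712.Toda

/-!
# P257, package A5 (helper545): existence of `V(4)`

`exists_V4`: a Smith-Toda complex `V(4)` exists if `p ≥ 11`, from

* the comparison `K : Cmp p` of the cobar complexes and the facts `F : K.Facts b0 h14` on the
  cohomology of the dual reduced powers;
* the relation `α₁ β₁^p ≡ 0` modulo `p` (`hII`);
* the `k = 1` step (`hL`).
-/

open CategoryTheory MonoidalCategory Limits Pretriangulated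

set_option linter.unusedSectionVars false

universe v u

namespace Vale.Agent.P257.H545

open Vale.Agent.P251 Vale.Agent.P251.T Vale.Agent.P251.F Vale.Agent.P251.I
  Vale.Agent.P251.M Vale.Agent.P257.H314 Vale.Agent.P257.H712
open Vale.Agent.P251.S hiding IC
open Vale.Agent.P251.B (sphE)

variable {T : Type u} [Category.{v} T] [Preadditive T] [HasZeroObject T]
    [HasShift T ℤ] [∀ n : ℤ, (shiftFunctor T n).Additive] [Pretriangulated T]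
    [MonoidalCategory T] [SymmetricCategory T] [TensorTriangulated T] [HasCoproducts.{0} T]
    [MonoidalClosed T] [IsTriangulated T] [HasProducts.{0} T] [StableCat T]

/-- The relation `α₁ β₁^p ≡ 0` modulo `p`, for all choices of the classes. -/
def TodaRel (p : ℕ) (D : MUData T) (U : UnitCof D.R) : Prop :=
  ∀ (t : Cob Laz 1), IsT1 p t → ∀ (htw : Cob.IsWt ((p : ℤ) - 1) t)
    (hb : Cob.IsWt ((p : ℤ) * ((p : ℤ) - 1)) (bcls p t))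
    (a : (𝟙_ T)⟦2 * ((p : ℤ) - 1)⟧ ⟶ U.cobar.B 1 (𝟙_ T)),
    ((sphE T ((p : ℤ) - 1)).inv ≫ D.phi U 1 ((p : ℤ) - 1) ⟨t, htw⟩) ≫
      U.cobar.q 1 (𝟙_ T) = a ≫ unitMap D.R _ →
    ∀ (x : (𝟙_ T)⟦2 * ((p : ℤ) * ((p : ℤ) - 1))⟧ ⟶ U.cobar.B 2 (𝟙_ T)),
    ((sphE T ((p : ℤ) * ((p : ℤ) - 1))).inv ≫
        D.phi U 2 ((p : ℤ) * ((p : ℤ) - 1)) ⟨bcls p t, hb⟩) ≫ U.cobar.q 2 (𝟙_ T) =
      x ≫ unitMap D.R _ →
    ∃ g, (p : ℤ) • g =
      H762.tSm (𝟙 (𝟙_ T)) (x ≫ U.bd 1 (𝟙_ T) ≫ (U.bd 0 (𝟙_ T))⟦(1 : ℤ)⟧') p ⊗ₘ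
        (a ≫ U.bd 0 (𝟙_ T))

/-- The conclusion of the `k = 1` step for `V`: every lift of the image of `v_4` to filtration
`2p-1` has a class of filtration `2p-1` which is killed. -/
def Step1 (p : ℕ) {D : MUData T} (U : UnitCof D.R) {V : T} (i : 𝟙_ T ⟶ V) : Prop :=
  ∀ y : (CV U V).D (2 * (p - 1) + 1) (2 * ((p : ℤ) ^ 4 - 1) - 1),
    (CV U V).proj _ (Nat.le_add_left 1 _) y = (CV U V).k 0 _ _ (by ring) (v4E U p i) →
    Null (CV U V) 1 ((CV U V).j _ _ y)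

/-- The algebraic input of the `k = 1` step. -/
def AlgStep1 (p : ℕ) : Prop :=
  ∀ ξ : Cob Laz 1, Cob.IsWt (((p : ℤ) - 1) * p ^ 4) ξ →
    Cob.d 0 (MvPolynomial.C (Laz.v p 5)) - ξ * MvPolynomial.C (Laz.v p 4) ∈ IC p 4 1 →
    ∀ T : Cob Laz (2 * (p - 1) + 1), Cob.IsWt (((p : ℤ) - 1) * (Wn p 4 + 1)) T →
      Cob.d _ T ∈ IC p 4 (2 * (p - 1) + 2) →
      ∀ (A : Cob Laz (2 * (p - 1) + 2)) (B : Cob Laz (2 * (p - 1) + 1)),
        Cob.cup (a := 2 * (p - 1) + 1) (b := 1) T ξ - MvPolynomial.C (Laz.v p 4) * A -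
          Cob.d (2 * (p - 1) + 1) B ∈ IC p 4 (2 * (p - 1) + 2) →
        ∃ y : Cob Laz (2 * (p - 1)), Cob.IsWt (((p : ℤ) - 1) * (Wn p 4 + 1)) y ∧
          T - Cob.d (2 * (p - 1)) y ∈ IC p 4 (2 * (p - 1) + 1)

/-- The algebraic input of the `k = 1` step, from the facts. -/
theorem Cmp.Facts.algStep1 {p : ℕ} [Fact p.Prime] {K : Cmp p} {b0 : K.X 2} {h14 : K.X 1}
    (F : K.Facts b0 h14) (hp : 11 ≤ p)
    (hξ : ∀ ξ : Cob Laz 1, Cob.IsWt (((p : ℤ) - 1) * p ^ 4) ξ →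
      Cob.d 0 (MvPolynomial.C (Laz.v p 5)) - ξ * MvPolynomial.C (Laz.v p 4) ∈ IC p 4 1 →
      K.f 1 ξ = h14 ∨ K.f 1 ξ = - h14) : AlgStep1 p := by
  intro ξ hξw hξ1 T hT hdT A B hAB
  have hp' : (11 : ℤ) ≤ p := by exact_mod_cast hp
  have hinj : K.InjR (K.f 1 ξ) (((p : ℤ) - 1) * p ^ 4) (2 * (p - 1))
      (((p : ℤ) - 1) * (Wn p 4 + 1)) := by
    rcases hξ ξ hξw hξ1 with h | h
    · rw [h]; exact F.delta
    · rw [h]; exact F.delta.neg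
  refine K.exists_of_cup hξw hinj ?_ ?_ hT hdT hAB
  · have e : ((p : ℤ) - 1) * (Wn p 4 + 1) = (p : ℤ) ^ 4 - 1 + (p - 1) := by
      rw [Wn_four]; ring
    rw [e]
    have h5 : (p : ℤ) ^ (4 + 1) = p * p ^ 4 := by ring
    have h4 : (p : ℤ) ^ 1 ≤ p ^ 4 := pow_le_pow_right₀ (by linarith) (by norm_num)
    rw [pow_one] at h4
    rw [h5]
    nlinarith [mul_nonneg (show (0 : ℤ) ≤ (p : ℤ) - 11 by linarith)
      (show (0 : ℤ) ≤ (p : ℤ) ^ 4 by positivity)]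
  · refine algVan_line (by norm_num) ?_
    rintro ⟨-, h⟩
    have e : ((p : ℤ) - 1) * (Wn p 4 + 1) - ((p : ℤ) ^ 4 - 1) = ((p : ℤ) - 1) * 1 := by
      rw [Wn_four]; ring
    rw [e] at h
    have h1 := le_of_mul_le_mul_left h (by linarith)
    push_cast [Nat.cast_sub (show 1 ≤ p by omega)] at h1
    linarith

section

variable {D : MUData T} (U : UnitCof D.R) {p : ℕ} [Fact p.Prime] {C₀ : T} {iC₀ : 𝟙_ T ⟶ C₀}

/-- **Existence of `V(4)`** from the vanishing statements, the Toda relation and the `k = 1`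
step. -/
theorem exists_V4_of (hp : 11 ≤ p) {δ : C₀ ⟶ (𝟙_ T)⟦(1 : ℤ)⟧}
    (hC : Triangle.mk ((p : ℤ) • 𝟙 (𝟙_ T)) iC₀ δ ∈ distTriang T)
    (hP : ∀ h, 1 ≤ h → h ≤ 4 → ProdVan p h) (hL : ∀ h, 1 ≤ h → h ≤ 3 → LiftVan p h)
    (hV : V4Van p)
    (hO : ∀ t, IsT1 p t → AlgOnto p 4 (bcls p t) ((p : ℤ) * ((p : ℤ) - 1)) 5
      (((p : ℤ) - 1) * (2 * p ^ 2 + 4 * p + 1)) (p ^ 2 - p - 3))
    (hII : TodaRel p D U)
    (hS : ∀ (V : T) (i : 𝟙_ T ⟶ V), IsST D p iC₀ 4 i → Step1 p U i) :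
    ∃ (V : T) (i : 𝟙_ T ⟶ V), IsST D p iC₀ 5 i := by
  obtain ⟨V, i, H⟩ := exists_V3 (D := D) (by omega) hC (fun h h1 h3 => hP h h1 (by omega)) hL
  obtain ⟨m⟩ := H.exists_uprod (hP 4 (by norm_num) le_rfl)
  obtain ⟨t, ht⟩ := F.T1 p
  obtain ⟨ht1, -, hb1, -, -⟩ := BCocycle p (by omega) t ht
  have e1 : ((p - 1 : ℕ) : ℤ) = (p : ℤ) - 1 := by
    rw [Nat.cast_sub (by omega), Nat.cast_one]
  have htw : Cob.IsWt ((p : ℤ) - 1) t := by rwa [e1] at ht1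
  have hb : Cob.IsWt ((p : ℤ) * ((p : ℤ) - 1)) (bcls p t) := by
    rwa [Nat.cast_mul, e1] at hb1
  obtain ⟨a, ha⟩ := H762.exists_alpha_one D U (by omega) ht e1.symm htw
  obtain ⟨x, hx⟩ := B.exists_beta_one D U (by omega) ht (by push_cast; rw [e1]) hb
  obtain ⟨x', hx'⟩ := exists_det_v4_toda U H m hC (by omega) hV ht htw hb a ha x hx
    (hII t ht htw hb a ha x hx) (hO t ht) (hS V i H)
  exact H.next m hx'

/-- **Existence of `V(4)`** from the facts on the dual reduced powers, the Toda relation and the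
`k = 1` step. -/
theorem exists_V4 (hp : 11 ≤ p) {δ : C₀ ⟶ (𝟙_ T)⟦(1 : ℤ)⟧}
    (hC : Triangle.mk ((p : ℤ) • 𝟙 (𝟙_ T)) iC₀ δ ∈ distTriang T)
    {K : Cmp p} {b0 : K.X 2} {h14 : K.X 1} (F : K.Facts b0 h14)
    (hb0 : ∀ t, IsT1 p t → K.f 2 (bcls p t) = b0 ∨ K.f 2 (bcls p t) = - b0)
    (hII : TodaRel p D U)
    (hS : ∀ (V : T) (i : 𝟙_ T ⟶ V), IsST D p iC₀ 4 i → Step1 p U i) :
    ∃ (V : T) (i : 𝟙_ T ⟶ V), IsST D p iC₀ 5 i := by
  refine exists_V4_of U hp hC (fun h h1 h4 => F.prodVan hp h1 h4)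
    (fun h h1 h3 => F.liftVan hp h1 h3) (F.v4Van hp) (fun t ht => ?_) hII hS
  obtain ⟨-, -, hb1, hdb, -⟩ := BCocycle p (by omega) t ht
  have e1 : ((p - 1 : ℕ) : ℤ) = (p : ℤ) - 1 := by
    rw [Nat.cast_sub (by omega), Nat.cast_one]
  have hb : Cob.IsWt ((p : ℤ) * ((p : ℤ) - 1)) (bcls p t) := by
    rwa [Nat.cast_mul, e1] at hb1
  rcases hb0 t ht with h | h
  · exact F.algOnto hp hb hdb h
  · exact F.neg_b0.algOnto hp hb hdb h

end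

end Vale.Agent.P257.H545
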