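import Vale.Agent.P257.H314.Quot
import Vale.Agent.P257.H314.Assemble
import Vale.Agent.P251.F.F3w
import Vale.Agent.P251.S.CobWt

/-!
# P257, package A5 (helper545): the `v_h`-Bockstein sequence

`QI p h = Laz / I_h`.  `vQ p h : QI p h` is invariant and regular, and the kernel of
`Cob (QI p h) s → Cob (QI p (h+1)) s` is generated by it.  Consequences:

* `AlgVan.step`: `H^s(Laz/I_{h+1})_w = 0` and `H^s(Laz/I_h)_{w - (p^h-1)} = 0` imply
  `H^s(Laz/I_h)_w = 0`;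
* `algVan_of_not_dvd`: `H^s(Laz/I_h)_w = 0` if `p - 1` does not divide `w` (`h ≥ 1`).
-/

open MvPolynomial

universe v u

namespace Vale.Agent.P257.H545

open Vale.Agent.P251 Vale.Agent.P251.F Vale.Agent.P257.H314

variable (p h : ℕ)

/-- `v_h` in `Laz / I_h`. -/
noncomputable def vQ : QI p h := Ideal.Quotient.mk (Laz.I p h) (Laz.v p h)

section

variable [Fact p.Prime]

theorem map_C_v_sub_mem {m n : ℕ} (α : Fin (m + 1) → Fin (n + 1)) :
    Cob.map α (C (Laz.v p h) : Cob Laz m) - C (Laz.v p h) ∈ IC p h n := by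
  have hC : IC p h n = Ih p h (Laz.univ.map (C : Laz →+* Cob Laz n)) := Laz.I_map p h _
  have h0 : Cob.map α (C (Laz.v p h) : Cob Laz m) =
      vv p h ((Cob.univ Laz n).g (α 0) • Laz.univ.map (C : Laz →+* Cob Laz n)) := by
    rw [Cob.map, Cob.ev_C, Chain.res_pt, Laz.map_v]
    congr 1
    exact LawRing.law_act ((Cob.univ Laz n).g (α 0)) (Cob.univ Laz n).pt
  have h2 : (C (Laz.v p h) : Cob Laz n) = vv p h (Laz.univ.map (C : Laz →+* Cob Laz n)) :=
    Laz.map_v p h _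
  have hc : ((Cob.univ Laz n).g (α 0)).c 0 = 1 := (Cob.univ Laz n).strict (α 0)
  have h1 := vv_smul_sub_mem p h (Laz.univ.map (C : Laz →+* Cob Laz n))
    ((Cob.univ Laz n).g (α 0))
  rw [hc, one_pow, _root_.mul_one, _root_.one_mul, ← hC] at h1
  rw [h0, h2]
  exact h1

theorem map_C_vQ {m n : ℕ} (α : Fin (m + 1) → Fin (n + 1)) :
    Cob.map α (C (vQ p h) : Cob (QI p h) m) = C (vQ p h) := by
  have h1 : (C (vQ p h) : Cob (QI p h) m) =
      Cob.mapRing (Ideal.Quotient.mk (Laz.I p h)) m (C (Laz.v p h)) := by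
    rw [Cob.mapRing, MvPolynomial.map_C]; rfl
  have h2 : (C (vQ p h) : Cob (QI p h) n) =
      Cob.mapRing (Ideal.Quotient.mk (Laz.I p h)) n (C (Laz.v p h)) := by
    rw [Cob.mapRing, MvPolynomial.map_C]; rfl
  rw [h1, h2, ← Cob.mapRing_map (isLawHom_mkI p h), ← sub_eq_zero, ← map_sub,
    mapRing_eq_zero_iff]
  exact map_C_v_sub_mem p h α

theorem isWt_C_vQ (s : ℕ) : Cob.IsWt ((p ^ h : ℤ) - 1) (C (vQ p h) : Cob (QI p h) s) := by
  have h2 : (C (vQ p h) : Cob (QI p h) s) =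
      Cob.mapRing (Ideal.Quotient.mk (Laz.I p h)) s (vw p h s).1 := by
    rw [Cob.mapRing, vw, MvPolynomial.map_C]; rfl
  rw [h2]
  exact (vw p h s).2.mapRing (isLawHom_mkI p h)

theorem d_vQ_mul {s : ℕ} (z : Cob (QI p h) s) :
    Cob.d s (C (vQ p h) * z) = C (vQ p h) * Cob.d s z := by
  rw [Cob.d_apply, Cob.d_apply, Finset.mul_sum]
  refine Finset.sum_congr rfl fun i _ => ?_
  rw [map_mul, map_C_vQ, mul_smul_comm]

theorem vQ_mul_eq_zero {s : ℕ} {z : Cob (QI p h) s} (hz : C (vQ p h) * z = 0) : z = 0 := by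
  obtain ⟨y, rfl⟩ := Cob.mapRing_surjective (n := s)
    (Ideal.Quotient.mk_surjective (I := Laz.I p h)) z
  have h2 : (C (vQ p h) : Cob (QI p h) s) =
      Cob.mapRing (Ideal.Quotient.mk (Laz.I p h)) s (C (Laz.v p h)) := by
    rw [Cob.mapRing, MvPolynomial.map_C]; rfl
  rw [h2, ← map_mul, mapRing_eq_zero_iff] at hz
  rw [mapRing_eq_zero_iff]
  exact mem_map_C_I_of_v_mul p le_rfl hz

theorem vQ_mul_cancel {s : ℕ} {z z' : Cob (QI p h) s} (hz : C (vQ p h) * z = C (vQ p h) * z') :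
    z = z' := by
  rw [← sub_eq_zero]
  refine vQ_mul_eq_zero p h ?_
  rw [mul_sub, hz, sub_self]

end

omit h in
theorem I_succ_eq (p h : ℕ) : Laz.I p (h + 1) = Laz.I p h ⊔ Ideal.span {Laz.v p h} := by
  apply le_antisymm
  · rw [Laz.I, Ih, Ideal.span_le]
    rintro _ ⟨i, hi, rfl⟩
    rcases Nat.lt_succ_iff_lt_or_eq.1 hi with h1 | rfl
    · exact Ideal.mem_sup_left (vv_mem_Ih h1 _)
    · exact Ideal.mem_sup_right (Ideal.mem_span_singleton_self _)
  · refine sup_le ?_ ?_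
    · rw [Laz.I, Laz.I, Ih, Ih, Ideal.span_le]
      rintro _ ⟨i, hi, rfl⟩
      exact vv_mem_Ih (Nat.lt_succ_of_lt hi) _
    · rw [Ideal.span_singleton_le_iff_mem]
      exact vv_mem_Ih (Nat.lt_succ_self h) _

theorem I_le_succ (p h : ℕ) : Laz.I p h ≤ Laz.I p (h + 1) := by
  rw [I_succ_eq]; exact le_sup_left

/-- The projection `Laz / I_h → Laz / I_{h+1}`. -/
noncomputable def redQ : QI p h →+* QI p (h + 1) := Ideal.Quotient.factor (I_le_succ p h)

theorem redQ_mk (a : Laz) : redQ p h (Ideal.Quotient.mk _ a) = Ideal.Quotient.mk _ a := rfl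

theorem redQ_comp : (redQ p h).comp (Ideal.Quotient.mk (Laz.I p h)) =
    Ideal.Quotient.mk (Laz.I p (h + 1)) := rfl

theorem redQ_surjective : Function.Surjective (redQ p h) := fun x => by
  obtain ⟨a, rfl⟩ := Ideal.Quotient.mk_surjective x
  exact ⟨Ideal.Quotient.mk _ a, rfl⟩

theorem redQ_vQ : redQ p h (vQ p h) = 0 := by
  rw [vQ, redQ_mk, Ideal.Quotient.eq_zero_iff_mem]
  exact vv_mem_Ih (Nat.lt_succ_self h) _

/-- reduction of cochains -/
noncomputable def red (s : ℕ) : Cob (QI p h) s →+* Cob (QI p (h + 1)) s :=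
  Cob.mapRing (redQ p h) s

theorem red_surjective (s : ℕ) : Function.Surjective (red p h s) :=
  Cob.mapRing_surjective (redQ_surjective p h)

theorem red_C_vQ_mul {s : ℕ} (z : Cob (QI p h) s) : red p h s (C (vQ p h) * z) = 0 := by
  rw [map_mul, red, Cob.mapRing, MvPolynomial.map_C, redQ_vQ, C_0, zero_mul]

theorem red_mapRing {s : ℕ} (z : Cob Laz s) :
    red p h s (Cob.mapRing (Ideal.Quotient.mk (Laz.I p h)) s z) =
      Cob.mapRing (Ideal.Quotient.mk (Laz.I p (h + 1))) s z := by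
  rw [red, Cob.mapRing_mapRing, redQ_comp]

variable [Fact p.Prime]

theorem epi_QI : LawRing.Epi (QI p h) := LawRing.epi_quotient LawRing.epi_laz _ (invariant_I p h)

theorem isLawHom_redQ : IsLawHom (redQ p h) :=
  IsLawHom.of_epi (epi_QI p h) (by
    have h1 : LawRing.law (N := QI p h) = Laz.univ.map (Ideal.Quotient.mk (Laz.I p h)) := rfl
    have h2 : LawRing.law (N := QI p (h + 1)) =
      Laz.univ.map (Ideal.Quotient.mk (Laz.I p (h + 1))) := rfl
    rw [h1, h2, Law.map_map, redQ_comp])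

variable {p h}

theorem red_d {s : ℕ} (z : Cob (QI p h) s) :
    red p h (s + 1) (Cob.d s z) = Cob.d s (red p h s z) := Cob.mapRing_d (isLawHom_redQ p h) z

theorem isWt_red {s : ℕ} {w : ℤ} {z : Cob (QI p h) s} (hz : Cob.IsWt w z) :
    Cob.IsWt w (red p h s z) := hz.mapRing (isLawHom_redQ p h)

theorem exists_red_eq {s : ℕ} {w : ℤ} {z : Cob (QI p (h + 1)) s} (hz : Cob.IsWt w z) :
    ∃ y : Cob (QI p h) s, Cob.IsWt w y ∧ red p h s y = z := by
  obtain ⟨z, rfl⟩ := exists_lift_wt hz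
  exact ⟨_, z.2.mapRing (isLawHom_mkI p h), red_mapRing p h z.1⟩

theorem exists_of_red_eq_zero {s : ℕ} {w : ℤ} {z : Cob (QI p h) s} (hw : Cob.IsWt w z)
    (hz : red p h s z = 0) :
    ∃ y : Cob (QI p h) s, Cob.IsWt (w - ((p ^ h : ℤ) - 1)) y ∧ z = C (vQ p h) * y := by
  obtain ⟨z, rfl⟩ := exists_lift_wt hw
  have h1 : z.1 ∈ IC p (h + 1) s := by
    rw [← mapRing_eq_zero_iff, ← red_mapRing, hz]
  rw [IC, I_succ_eq, Ideal.map_sup, Ideal.map_span, Set.image_singleton] at h1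
  obtain ⟨a, ha, b, hb, hab⟩ := Submodule.mem_sup.1 h1
  obtain ⟨c, rfl⟩ := Ideal.mem_span_singleton.1 hb
  have h2 : Cob.mapRing (Ideal.Quotient.mk (Laz.I p h)) s z.1 =
      C (vQ p h) * Cob.mapRing (Ideal.Quotient.mk (Laz.I p h)) s c := by
    rw [← hab, map_add, (mapRing_eq_zero_iff a).2 ha, zero_add, map_mul, vQ]
    congr 1
    exact MvPolynomial.map_C _ _
  refine ⟨Cob.proj (w - ((p ^ h : ℤ) - 1))
    (Cob.mapRing (Ideal.Quotient.mk (Laz.I p h)) s c), Cob.isWt_proj _ _, ?_⟩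
  have h3 := congrArg (Cob.proj w) h2
  rw [Cob.proj_of_isWt hw, if_pos rfl] at h3
  rw [h3]
  have h4 := S.CobWt.proj_mul (isWt_C_vQ p h s) (w - ((p ^ h : ℤ) - 1))
    (Cob.mapRing (Ideal.Quotient.mk (Laz.I p h)) s c)
  rw [← h4, add_sub_cancel]

/-! ### the long exact sequence -/

/-- Injectivity of the reduction on cohomology. -/
theorem exists_d_of_red {s : ℕ} {w : ℤ} (hv : AlgVan p h (s + 1) (w - ((p ^ h : ℤ) - 1)))
    {z : Cob (QI p h) (s + 1)} (hw : Cob.IsWt w z) (hd : Cob.d (s + 1) z = 0)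
    {y : Cob (QI p (h + 1)) s} (hy : Cob.IsWt w y) (hyz : Cob.d s y = red p h (s + 1) z) :
    ∃ y' : Cob (QI p h) s, Cob.IsWt w y' ∧ Cob.d s y' = z := by
  obtain ⟨y, hy', rfl⟩ := exists_red_eq hy
  have h1 : red p h (s + 1) (z - Cob.d s y) = 0 := by rw [map_sub, red_d, hyz, sub_self]
  obtain ⟨u, hu, hzu⟩ := exists_of_red_eq_zero (hw.add hy'.d.neg) (by
    rw [← sub_eq_add_neg]; exact h1)
  rw [← sub_eq_add_neg] at hzu
  have hdu : Cob.d (s + 1) u = 0 := by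
    apply vQ_mul_eq_zero p h
    rw [← d_vQ_mul, ← hzu, map_sub, hd, Cob.d_d, sub_zero]
  obtain ⟨u', hu', rfl⟩ := (algVan_succ_iff.1 hv) u hu hdu
  refine ⟨y + C (vQ p h) * u', hy'.add ?_, ?_⟩
  · have := (isWt_C_vQ p h s).mul hu'
    rwa [add_sub_cancel] at this
  · rw [map_add, d_vQ_mul, ← hzu, add_sub_cancel]

/-- Injectivity of the reduction on cohomology, degree zero. -/
theorem eq_zero_of_red {w : ℤ} (hv : AlgVan p h 0 (w - ((p ^ h : ℤ) - 1)))
    {z : Cob (QI p h) 0} (hw : Cob.IsWt w z) (hd : Cob.d 0 z = 0)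
    (hz : red p h 0 z = 0) : z = 0 := by
  obtain ⟨u, hu, rfl⟩ := exists_of_red_eq_zero hw hz
  rw [d_vQ_mul] at hd
  rw [(algVan_zero_iff.1 hv) u hu (vQ_mul_eq_zero p h hd), mul_zero]

/-- The step: `H^s(Laz/I_{h+1})_w = 0` and `H^s(Laz/I_h)_{w-(p^h-1)} = 0` imply
`H^s(Laz/I_h)_w = 0`. -/
theorem algVan_step {s : ℕ} {w : ℤ} (h1 : AlgVan p (h + 1) s w)
    (h2 : AlgVan p h s (w - ((p ^ h : ℤ) - 1))) : AlgVan p h s w := by
  cases s with
  | zero =>
    refine algVan_zero_iff.2 fun z hz hdz => eq_zero_of_red h2 hz hdz ?_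
    refine (algVan_zero_iff.1 h1) _ (isWt_red hz) ?_
    rw [← red_d, hdz, map_zero]
  | succ s =>
    refine algVan_succ_iff.2 fun z hz hdz => ?_
    obtain ⟨y, hy, hyz⟩ := (algVan_succ_iff.1 h1) _ (isWt_red hz) (by rw [← red_d, hdz, map_zero])
    exact exists_d_of_red h2 hz hdz hy hyz

/-- Surjectivity of the reduction on cohomology: if `H^{s+1}(Laz/I_h)_{w-(p^h-1)} = 0` then every
cocycle modulo `I_{h+1}` lifts. -/
theorem exists_cocycle_lift {s : ℕ} {w : ℤ} (hv : AlgVan p h (s + 1) (w - ((p ^ h : ℤ) - 1)))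
    {z : Cob (QI p (h + 1)) s} (hz : Cob.IsWt w z) (hdz : Cob.d s z = 0) :
    ∃ y : Cob (QI p h) s, Cob.IsWt w y ∧ Cob.d s y = 0 ∧ red p h s y = z := by
  obtain ⟨y, hy, rfl⟩ := exists_red_eq hz
  obtain ⟨u, hu, hyu⟩ := exists_of_red_eq_zero hy.d (by rw [red_d, hdz])
  have hdu : Cob.d (s + 1) u = 0 := by
    apply vQ_mul_eq_zero p h
    rw [← d_vQ_mul, ← hyu, Cob.d_d]
  obtain ⟨u', hu', rfl⟩ := (algVan_succ_iff.1 hv) u hu hdu
  refine ⟨y - C (vQ p h) * u', ?_, ?_, ?_⟩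
  · rw [sub_eq_add_neg]
    refine hy.add ?_
    have := ((isWt_C_vQ p h s).mul hu').neg
    rwa [add_sub_cancel] at this
  · rw [map_sub, d_vQ_mul, hyu, sub_self]
  · rw [map_sub, red_C_vQ_mul, sub_zero]

/-! ### sparseness -/

/-- `H^s(Laz/I_h)_w = 0` if `p - 1` does not divide `w`. -/
theorem algVan_of_not_dvd (hp : p ≠ 2) (hh : 1 ≤ h) {s : ℕ} {w : ℤ} (hw : ¬ ((p : ℤ) - 1) ∣ w) :
    AlgVan p h s w := by
  have h0 : ((p : ℕ) : QI p h) = 0 := by
    have : (p : Laz) ∈ Laz.I p h := by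
      have h1 := vv_mem_Ih (p := p) (h := h) (i := 0) (by omega) Laz.univ
      rwa [vv_zero] at h1
    have h2 := Ideal.Quotient.eq_zero_iff_mem.2 this
    rwa [map_natCast] at h2
  have h1 := F3w p hp (QI p h) (epi_QI p h) h0 w hw
  cases s with
  | zero => exact algVan_zero_iff.2 h1.1
  | succ s => exact algVan_succ_iff.2 (h1.2 s)

end Vale.Agent.P257.H545
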