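import Vale.Agent.P257.H314.Quot
import Vale.Agent.P257.H712.Bridge
import Vale.Agent.P251.S.CobWt

/-!
# P257, package A5 (helper545): cup products with a cocycle of degree `2`
-/

open MvPolynomial

namespace Vale.Agent.P257.H545

open Vale.Agent.P251 Vale.Agent.P251.F Vale.Agent.P257.H314 Vale.Agent.P257.H712

section

variable {N : Type} [CommRing N] [LawRing N]

theorem add_cup {a b : ℕ} (x x' : Cob N a) (y : Cob N b) :
    Cob.cup (x + x') y = Cob.cup x y + Cob.cup x' y := by
  rw [Cob.cup, Cob.cup, Cob.cup, map_add, add_mul]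

theorem cup_add {a b : ℕ} (x : Cob N a) (y y' : Cob N b) :
    Cob.cup x (y + y') = Cob.cup x y + Cob.cup x y' := by
  rw [Cob.cup, Cob.cup, Cob.cup, map_add, mul_add]

theorem neg_cup {a b : ℕ} (x : Cob N a) (y : Cob N b) :
    Cob.cup (-x) y = - Cob.cup x y := by
  rw [Cob.cup, Cob.cup, map_neg, neg_mul]

theorem sub_cup {a b : ℕ} (x x' : Cob N a) (y : Cob N b) :
    Cob.cup (x - x') y = Cob.cup x y - Cob.cup x' y := by
  rw [Cob.cup, Cob.cup, Cob.cup, map_sub, sub_mul]

/-- `d (x ∪ y) = d x ∪ y` for a cocycle `y` of degree `2`. -/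
theorem d_cup_two {a : ℕ} (x : Cob N a) {y : Cob N 2} (hy : Cob.d 2 y = 0) :
    Cob.d (a + 2) (Cob.cup (a := a) (b := 2) x y) =
      Cob.cup (a := a + 1) (b := 2) (Cob.d a x) y := by
  refine Cob.ext_ev fun B _ c => ?_
  change Chain N (a + 3) B at c
  have hy' : ∀ c' : Chain N 3 B, ∑ j : Fin 4, ((-1 : ℤ) ^ (j : ℕ)) • Cob.ev (c'.res j.succAbove) y
      = 0 := fun c' => by rw [← Cob.ev_d, hy, map_zero]
  have h1 : Cob.ev c (Cob.d (a + 2) (Cob.cup (a := a) (b := 2) x y)) =
      ∑ i : Fin (a + 1 + 3), ((-1 : ℤ) ^ (i : ℕ)) •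
        (Cob.ev ((c.res (Fin.succAbove (n := a + 3) i)).res (Cob.front a 2)) x *
          Cob.ev ((c.res (Fin.succAbove (n := a + 3) i)).res (Cob.back a 2)) y) := by
    rw [Cob.ev_d]
    refine Finset.sum_congr rfl fun i _ => ?_
    rw [Cob.ev_cup]
  have h2 : Cob.ev c (Cob.cup (a := a + 1) (b := 2) (Cob.d a x) y) =
      ∑ i : Fin (a + 1 + 1), ((-1 : ℤ) ^ (i : ℕ)) •
        (Cob.ev ((c.res (Cob.front (a + 1) 2)).res (Fin.succAbove (n := a + 1) i)) x *
          Cob.ev (c.res (Cob.back (a + 1) 2)) y) := by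
    rw [Cob.ev_cup (a := a + 1) (b := 2) c (Cob.d a x) y, Cob.ev_d, Finset.sum_mul]
    refine Finset.sum_congr rfl fun i _ => ?_
    rw [smul_mul_assoc]
  have h3 := hy' (c.res (Cob.back a 3))
  rw [Fin.sum_univ_succ] at h3
  refine h1.trans ((Fin.sum_univ_add _).trans (Eq.trans ?_
    (h2.trans (Fin.sum_univ_castSucc _)).symm))
  congr 1
  · refine Finset.sum_congr rfl fun i _ => ?_
    rw [Chain.res_res, Chain.res_res, Chain.res_res]
    have e1 : (fun j => (Fin.castAdd 3 i).succAbove (Cob.front a 2 j)) =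
        fun j => Cob.front (a + 1) 2 (i.castSucc.succAbove j) := by
      funext j
      ext
      simp only [Cob.front, Fin.succAbove, Fin.lt_def, Fin.val_castSucc, Fin.val_castAdd]
      split_ifs <;> rfl
    have e2 : (fun j => (Fin.castAdd 3 i).succAbove (Cob.back a 2 j)) =
        Cob.back (a + 1) 2 := by
      funext j
      ext
      simp only [Cob.back, Fin.succAbove, Fin.lt_def, Fin.val_castSucc, Fin.val_castAdd]
      rw [if_neg (by omega)]
      simp
      omega
    simp only [Function.comp_def]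
    rw [e1, e2]
    rfl
  · have h4 : ∀ j : Fin 3, ((-1 : ℤ) ^ ((Fin.natAdd (a + 1) j : Fin (a + 1 + 3)) : ℕ)) •
        (Cob.ev ((c.res (Fin.succAbove (n := a + 3) (Fin.natAdd (a + 1) j))).res
            (Cob.front a 2)) x *
          Cob.ev ((c.res (Fin.succAbove (n := a + 3) (Fin.natAdd (a + 1) j))).res
            (Cob.back a 2)) y) =
        ((-1 : ℤ) ^ a) • (Cob.ev (c.res (Cob.front a 3)) x *
          (((-1 : ℤ) ^ ((j.succ : Fin 4) : ℕ)) •
            Cob.ev ((c.res (Cob.back a 3)).res (Fin.succAbove (n := 3) j.succ)) y)) := by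
      intro j
      rw [Chain.res_res, Chain.res_res, Chain.res_res]
      have e1 : (fun i => (Fin.natAdd (a + 1) j : Fin (a + 3 + 1)).succAbove (Cob.front a 2 i)) =
          Cob.front a 3 := by
        funext i
        ext
        simp only [Cob.front, Fin.succAbove, Fin.lt_def, Fin.val_castSucc, Fin.val_natAdd]
        rw [if_pos (by omega)]
        rfl
      have e2 : (fun i => (Fin.natAdd (a + 1) j : Fin (a + 3 + 1)).succAbove (Cob.back a 2 i)) =
          fun i => Cob.back a 3 (j.succ.succAbove i) := by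
        funext i
        ext
        simp only [Cob.back, Fin.succAbove, Fin.lt_def, Fin.val_castSucc, Fin.val_natAdd,
          Fin.val_succ]
        split_ifs <;> simp <;> omega
      simp only [Function.comp_def]
      rw [e1, e2, mul_smul_comm, smul_smul, ← pow_add]
      congr 2
      simp
      ring
    rw [Finset.sum_congr rfl fun j _ => h4 j, ← Finset.smul_sum, ← Finset.mul_sum,
      ← neg_eq_of_add_eq_zero_right h3]
    rw [Chain.res_res, Chain.res_res]
    have e1 : (fun i => Cob.front (a + 1) 2 ((Fin.last (a + 1)).succAbove i)) =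
        Cob.front a 3 := by
      funext i
      ext
      simp only [Cob.front, Fin.succAbove_last, Fin.val_castSucc]
    have e2 : (fun i => Cob.back a 3 ((0 : Fin 4).succAbove i)) = Cob.back (a + 1) 2 := by
      funext i
      ext
      simp only [Cob.back, Fin.succAbove_zero, Fin.val_succ]
      omega
    simp only [Function.comp_def]
    rw [e1, e2]
    simp [pow_succ]

theorem d_cupN {s : ℕ} {c : Cob N s} {b : Cob N 2} (hb : Cob.d 2 b = 0) (hc : Cob.d s c = 0)
    (K : ℕ) : Cob.d (s + 2 * K) (cupN c b K) = 0 := by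
  induction K with
  | zero => exact hc
  | succ K ih =>
    rw [cupN_succ]
    refine (d_cup_two (a := s + 2 * K) (cupN c b K) hb).trans ?_
    rw [ih, Cob.cup, map_zero, zero_mul]

end

/-- Iterated cup products of cocycles modulo `I_h` are cocycles modulo `I_h`. -/
theorem d_cupN_mem {p h : ℕ} [Fact p.Prime] {s : ℕ} {c : Cob Laz s} {b : Cob Laz 2}
    (hb : Cob.d 2 b ∈ IC p h 3) (hc : Cob.d s c ∈ IC p h (s + 1)) (K : ℕ) :
    Cob.d (s + 2 * K) (cupN c b K) ∈ IC p h (s + 2 * K + 1) := by
  rw [← mapRing_eq_zero_iff, Cob.mapRing_d (isLawHom_mkI p h), mapRing_cupN (isLawHom_mkI p h)]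
  rw [← mapRing_eq_zero_iff, Cob.mapRing_d (isLawHom_mkI p h)] at hb hc
  exact d_cupN hb hc K

end Vale.Agent.P257.H545
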