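import Vale.Agent.P257.H314.Stab
import Vale.Agent.P257.H545.Bock
import Vale.Agent.P257.H545.Leib

/-!
# P257, package A5 (helper545): the bridge between the cobar complex of the dual reduced powers
and `Laz / I_h`

`Cmp p`: a cochain complex of rings `X n` (in the application: `CobP p n`, the cobar complex of
`P_* = F_p[t_1, t_2, …]`), with ring maps `f n : Cob Laz n → X n` which commute with the
differential and the cup product, kill all `I_h`, and induce isomorphisms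
`H^s(Laz / I_h)_w → H^s(X)_w` for `w < p^h - 1`.

Consequences: `StabVan`, and the transport of exceptional facts.
-/

open MvPolynomial

namespace Vale.Agent.P257.H545

open Vale.Agent.P251 Vale.Agent.P251.F Vale.Agent.P257.H314 Vale.Agent.P257.H712
open Vale.Agent.P251.S hiding IC

/-- The comparison of the cobar complexes of `Laz / I_h` and of the dual reduced powers. -/
structure Cmp (p : ℕ) where
  /-- the cobar complex -/
  X : ℕ → Type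
  [ring : ∀ n, CommRing (X n)]
  /-- the differential -/
  d : ∀ n, X n →+ X (n + 1)
  /-- weights: `IsWt w x`, `w` is the internal degree divided by `2` -/
  IsWt : ∀ {n : ℕ}, ℤ → X n → Prop
  add_wt : ∀ {n : ℕ} {w : ℤ} {x y : X n}, IsWt w x → IsWt w y → IsWt w (x + y)
  neg_wt : ∀ {n : ℕ} {w : ℤ} {x : X n}, IsWt w x → IsWt w (-x)
  zero_wt : ∀ {n : ℕ} {w : ℤ}, IsWt w (0 : X n)
  d_wt : ∀ {n : ℕ} {w : ℤ} {x : X n}, IsWt w x → IsWt w (d n x)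
  d_d : ∀ {n : ℕ} (x : X n), d (n + 1) (d n x) = 0
  /-- the cup product -/
  cup : ∀ {a b : ℕ}, X a → X b → X (a + b)
  cup_wt : ∀ {a b : ℕ} {v w : ℤ} {x : X a} {y : X b}, IsWt v x → IsWt w y → IsWt (v + w) (cup x y)
  add_cup : ∀ {a b : ℕ} (x x' : X a) (y : X b), cup (x + x') y = cup x y + cup x' y
  cup_add : ∀ {a b : ℕ} (x : X a) (y y' : X b), cup x (y + y') = cup x y + cup x y'
  d_cup_two : ∀ {a : ℕ} (x : X a) {y : X 2}, d 2 y = 0 →
    d (a + 2) (cup (a := a) (b := 2) x y) = cup (a := a + 1) (b := 2) (d a x) y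
  /-- the comparison map -/
  f : ∀ n, Cob Laz n →+* X n
  f_IC : ∀ {h n : ℕ} {z : Cob Laz n}, z ∈ IC p h n → f n z = 0
  f_d : ∀ {n : ℕ} (z : Cob Laz n), f (n + 1) (Cob.d n z) = d n (f n z)
  f_cup : ∀ {a b : ℕ} (x : Cob Laz a) (y : Cob Laz b),
    f (a + b) (Cob.cup x y) = cup (f a x) (f b y)
  f_wt : ∀ {n : ℕ} {w : ℤ} {z : Cob Laz n}, Cob.IsWt w z → IsWt w (f n z)
  inj_zero : ∀ {h : ℕ} {w : ℤ}, 1 ≤ h → w < (p : ℤ) ^ h - 1 → ∀ {z : Cob Laz 0}, Cob.IsWt w z →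
    Cob.d 0 z ∈ IC p h 1 → f 0 z = 0 → z ∈ IC p h 0
  inj : ∀ {h n : ℕ} {w : ℤ}, 1 ≤ h → w < (p : ℤ) ^ h - 1 → ∀ {z : Cob Laz (n + 1)},
    Cob.IsWt w z → Cob.d (n + 1) z ∈ IC p h (n + 2) → ∀ {y : X n}, IsWt w y →
      d n y = f (n + 1) z → ∃ y' : Cob Laz n, Cob.IsWt w y' ∧ z - Cob.d n y' ∈ IC p h (n + 1)
  surj : ∀ {h n : ℕ} {w : ℤ}, 1 ≤ h → w < (p : ℤ) ^ h - 1 → ∀ {c : X (n + 1)}, IsWt w c →
    d (n + 1) c = 0 → ∃ (z : Cob Laz (n + 1)) (e : X n), Cob.IsWt w z ∧ IsWt w e ∧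
      Cob.d (n + 1) z ∈ IC p h (n + 2) ∧ f (n + 1) z = c + d n e

attribute [instance] Cmp.ring

namespace Cmp

variable {p : ℕ} (K : Cmp p)

/-- `H^s(X)_w = 0`. -/
def Van : ℕ → ℤ → Prop
  | 0, w => ∀ c : K.X 0, K.IsWt w c → K.d 0 c = 0 → c = 0
  | s + 1, w => ∀ c : K.X (s + 1), K.IsWt w c → K.d (s + 1) c = 0 →
      ∃ c' : K.X s, K.IsWt w c' ∧ K.d s c' = c

lemma sub_wt {n : ℕ} {w : ℤ} {x y : K.X n} (hx : K.IsWt w x) (hy : K.IsWt w y) :
    K.IsWt w (x - y) := by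
  rw [sub_eq_add_neg]
  exact K.add_wt hx (K.neg_wt hy)

lemma zero_cup {a b : ℕ} (y : K.X b) : K.cup (0 : K.X a) y = 0 := by
  have h := K.add_cup (0 : K.X a) 0 y
  rw [add_zero] at h
  exact left_eq_add.1 h

lemma neg_cup {a b : ℕ} (x : K.X a) (y : K.X b) : K.cup (-x) y = - K.cup x y := by
  have h := K.add_cup x (-x) y
  rw [add_neg_cancel, K.zero_cup] at h
  exact (neg_eq_of_add_eq_zero_right h.symm).symm

lemma cup_zero {a b : ℕ} (x : K.X a) : K.cup x (0 : K.X b) = 0 := by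
  have h := K.cup_add x (0 : K.X b) 0
  rw [add_zero] at h
  exact left_eq_add.1 h

lemma cup_neg {a b : ℕ} (x : K.X a) (y : K.X b) : K.cup x (-y) = - K.cup x y := by
  have h := K.cup_add x y (-y)
  rw [add_neg_cancel, K.cup_zero] at h
  exact (neg_eq_of_add_eq_zero_right h.symm).symm

lemma sub_cup {a b : ℕ} (x x' : K.X a) (y : K.X b) :
    K.cup (x - x') y = K.cup x y - K.cup x' y := by
  rw [sub_eq_add_neg, K.add_cup, K.neg_cup, ← sub_eq_add_neg]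

theorem algVan_of_van {h s : ℕ} {w : ℤ} (hh : 1 ≤ h) (hw : w < (p : ℤ) ^ h - 1)
    (hv : K.Van s w) : AlgVan p h s w := by
  cases s with
  | zero =>
    intro z hz hdz
    refine K.inj_zero hh hw hz hdz (hv _ (K.f_wt hz) ?_)
    rw [← K.f_d, K.f_IC hdz]
  | succ s =>
    intro z hz hdz
    obtain ⟨y, hy, hyz⟩ := hv _ (K.f_wt hz) (by rw [← K.f_d, K.f_IC hdz])
    exact K.inj hh hw hz hdz hy hyz

theorem stabVan_of_van {s : ℕ} {W : ℤ} (hv : K.Van s (((p : ℤ) - 1) * W)) : StabVan p s W :=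
  fun _ hh hw => K.algVan_of_van hh hw hv

section

variable [Fact p.Prime]

/-- Injectivity for `Laz / I_h` in weights `< p^{h+1} - 1`. -/
theorem inj_succ {h n : ℕ} {w : ℤ} (hw : w < (p : ℤ) ^ (h + 1) - 1)
    (hv : AlgVan p h (n + 1) (w - ((p ^ h : ℤ) - 1))) {z : Cob Laz (n + 1)}
    (hz : Cob.IsWt w z) (hdz : Cob.d (n + 1) z ∈ IC p h (n + 2)) {y : K.X n} (hy : K.IsWt w y)
    (hyz : K.d n y = K.f (n + 1) z) :
    ∃ y' : Cob Laz n, Cob.IsWt w y' ∧ z - Cob.d n y' ∈ IC p h (n + 1) := by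
  obtain ⟨y', hy', hzy⟩ := K.inj (by omega) hw hz (IC_mono hdz) hy hyz
  have h1 := exists_d_of_red (p := p) (h := h) hv (hz.mapRing (isLawHom_mkI p h)) (by
      rw [← Cob.mapRing_d (isLawHom_mkI p h), mapRing_eq_zero_iff]; exact hdz)
    (y := Cob.mapRing (Ideal.Quotient.mk (Laz.I p (h + 1))) n y')
    (hy'.mapRing (isLawHom_mkI p (h + 1))) (by
      rw [red_mapRing, ← Cob.mapRing_d (isLawHom_mkI p (h + 1)), ← sub_eq_zero, ← map_sub,
        mapRing_eq_zero_iff, ← neg_mem_iff, neg_sub]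
      exact hzy)
  obtain ⟨c, hc, hcz⟩ := h1
  obtain ⟨c, rfl⟩ := exists_lift_wt hc
  refine ⟨c.1, c.2, ?_⟩
  rw [← mapRing_eq_zero_iff, map_sub, Cob.mapRing_d (isLawHom_mkI p h), hcz, sub_self]

end

/-! ### iterated cup products -/

/-- Iterated cup products on the right. -/
def cupN {s : ℕ} (c : K.X s) (b : K.X 2) : ∀ k : ℕ, K.X (s + 2 * k)
  | 0 => c
  | k + 1 => K.cup (a := s + 2 * k) (b := 2) (cupN c b k) b

lemma cupN_succ {s : ℕ} (c : K.X s) (b : K.X 2) (k : ℕ) :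
    K.cupN c b (k + 1) = K.cup (a := s + 2 * k) (b := 2) (K.cupN c b k) b := rfl

lemma f_cupN {s : ℕ} (c : Cob Laz s) (b : Cob Laz 2) (k : ℕ) :
    K.f (s + 2 * k) (H712.cupN c b k) = K.cupN (K.f s c) (K.f 2 b) k := by
  induction k with
  | zero => rfl
  | succ k ih =>
    rw [H712.cupN_succ, K.cupN_succ, ← ih]
    exact K.f_cup (a := s + 2 * k) (b := 2) _ _

lemma cupN_add {s : ℕ} (c c' : K.X s) (b : K.X 2) (k : ℕ) :
    K.cupN (c + c') b k = K.cupN c b k + K.cupN c' b k := by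
  induction k with
  | zero => rfl
  | succ k ih => rw [K.cupN_succ, ih, K.add_cup]; rfl

/-- Iterated products of coboundaries are coboundaries. -/
lemma exists_cupN_d {s : ℕ} {b : K.X 2} (hb : K.d 2 b = 0) {v w : ℤ} (hv : K.IsWt v b)
    {e : K.X s} (he : K.IsWt w e) (k : ℕ) :
    ∃ e' : K.X (s + 1 + 2 * k + 1), K.IsWt (Couple.Mul2.deg v w (k + 1)) e' ∧
      K.d (s + 1 + 2 * k + 1) e' = K.cupN (K.d s e) b (k + 1) := by
  induction k with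
  | zero =>
    exact ⟨K.cup (a := s) (b := 2) e b, K.cup_wt he hv, K.d_cup_two (a := s) e hb⟩
  | succ k ih =>
    obtain ⟨e', he', hd⟩ := ih
    refine ⟨K.cup (a := s + 1 + 2 * k + 1) (b := 2) e' b, K.cup_wt he' hv, ?_⟩
    refine (K.d_cup_two (a := s + 1 + 2 * k + 1) e' hb).trans ?_
    rw [K.cupN_succ, ← hd]

/-! ### surjectivity of multiplications -/

/-- Right multiplication by `b` (a class of degree `2` and weight `v`) is onto:
`H^s_w → H^{s+2}_{w+v}`. -/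
def OntoR (b : K.X 2) (v : ℤ) (s : ℕ) (w : ℤ) : Prop :=
  ∀ c : K.X (s + 2), K.IsWt (w + v) c → K.d (s + 2) c = 0 →
    ∃ (c₀ : K.X s) (e : K.X (s + 1)), K.IsWt w c₀ ∧ K.IsWt (w + v) e ∧ K.d s c₀ = 0 ∧
      c = K.cup (a := s) (b := 2) c₀ b + K.d (s + 1) e

/-- Right multiplication by `b^(k+1)` is onto. -/
def OntoN (b : K.X 2) (v : ℤ) (s : ℕ) (w : ℤ) (k : ℕ) : Prop :=
  ∀ c : K.X (s + 2 * (k + 1)), K.IsWt (Couple.Mul2.deg v w (k + 1)) c →
    K.d (s + 2 * (k + 1)) c = 0 →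
    ∃ (c₀ : K.X s) (e : K.X (s + 2 * k + 1)), K.IsWt w c₀ ∧
      K.IsWt (Couple.Mul2.deg v w (k + 1)) e ∧ K.d s c₀ = 0 ∧
      c = K.cupN c₀ b (k + 1) + K.d (s + 2 * k + 1) e

theorem ontoN_of_ontoR {b : K.X 2} (hb : K.d 2 b = 0) {v : ℤ} (hv : K.IsWt v b) {s : ℕ} {w : ℤ}
    (k : ℕ) (H : ∀ j ≤ k, K.OntoR b v (s + 2 * j) (Couple.Mul2.deg v w j)) :
    K.OntoN b v s w k := by
  induction k with
  | zero => exact H 0 le_rfl
  | succ k ih =>
    intro c hc hdc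
    obtain ⟨c₁, e₁, hc₁, he₁, hd₁, heq₁⟩ := H (k + 1) le_rfl c hc hdc
    obtain ⟨c₀, e₀, hc₀, he₀, hd₀, heq₀⟩ := ih (fun j hj => H j (by omega)) c₁ hc₁ hd₁
    refine ⟨c₀, K.cup (a := s + 2 * k + 1) (b := 2) e₀ b + e₁, hc₀,
      K.add_wt (K.cup_wt he₀ hv) he₁, hd₀, ?_⟩
    rw [heq₁, heq₀, K.cupN_succ c₀ b (k + 1), K.add_cup, map_add]
    have h1 : K.cup (a := s + 2 * (k + 1)) (b := 2) (K.d (s + 2 * k + 1) e₀) b =
      K.d (s + 2 * (k + 1) + 1) (K.cup (a := s + 2 * k + 1) (b := 2) e₀ b) :=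
      (K.d_cup_two (a := s + 2 * k + 1) e₀ hb).symm
    rw [h1]
    exact add_assoc _ _ _

/-- A surjective multiplication transports vanishing. -/
theorem Van.of_ontoR {b : K.X 2} (hb : K.d 2 b = 0) {v : ℤ} (hv : K.IsWt v b) {s : ℕ} {w : ℤ}
    (h0 : K.Van (s + 1) w) (H : K.OntoR b v (s + 1) w) : K.Van (s + 1 + 2) (w + v) := by
  intro c hc hdc
  obtain ⟨c₀, e, hc₀, he, hd, rfl⟩ := H c hc hdc
  obtain ⟨c', hc', rfl⟩ := h0 c₀ hc₀ hd
  refine ⟨K.cup (a := s) (b := 2) c' b + e, K.add_wt (K.cup_wt hc' hv) he, ?_⟩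
  rw [map_add]
  congr 1
  exact K.d_cup_two (a := s) c' hb

theorem OntoR.neg {b : K.X 2} {v : ℤ} {s : ℕ} {w : ℤ} (H : K.OntoR b v s w) :
    K.OntoR (-b) v s w := by
  intro c hc hdc
  obtain ⟨c₀, e, hc₀, he, hd, rfl⟩ := H c hc hdc
  refine ⟨-c₀, e, K.neg_wt hc₀, he, by rw [map_neg, hd, neg_zero], ?_⟩
  rw [K.cup_neg, K.neg_cup, neg_neg]

/-- `AlgOnto` from the surjectivity for the cobar complex of the dual reduced powers. -/
theorem algOnto_of_ontoN [Fact p.Prime] {h s : ℕ} (hh : 1 ≤ h) {v w : ℤ} {b : Cob Laz 2}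
    (hb : Cob.IsWt v b) (hdb : Cob.d 2 b = 0) {k : ℕ} (hw : w < (p : ℤ) ^ h - 1)
    (hw' : Couple.Mul2.deg v w (k + 1) < (p : ℤ) ^ (h + 1) - 1)
    (hv : AlgVan p h (s + 1 + 2 * (k + 1)) (Couple.Mul2.deg v w (k + 1) - ((p ^ h : ℤ) - 1)))
    (H : K.OntoN (K.f 2 b) v (s + 1) w k) : AlgOnto p h b v (s + 1) w k := by
  intro c hc hdc
  have hdb' : K.d 2 (K.f 2 b) = 0 := by rw [← K.f_d, hdb, map_zero]
  obtain ⟨c₀, e, hc₀, he, hd, heq⟩ := H (K.f _ c) (K.f_wt hc) (by rw [← K.f_d, K.f_IC hdc])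
  obtain ⟨z, e', hz, he', hdz, hfz⟩ := K.surj hh hw hc₀ hd
  obtain ⟨e₂, he₂, hde₂⟩ := K.exists_cupN_d hdb' (K.f_wt hb) he' k
  have h1 : K.f (s + 1 + 2 * (k + 1)) (c - H712.cupN z b (k + 1)) =
      K.d (s + 1 + 2 * k + 1) (e - e₂) := by
    rw [map_sub, K.f_cupN, hfz, heq, K.cupN_add, map_sub, hde₂]
    abel
  have hz1 : Cob.IsWt (Couple.Mul2.deg v w (k + 1)) (H712.cupN z b (k + 1)) :=
    cupN_isWt hz hb (k + 1)
  have hdz1 : Cob.d (s + 1 + 2 * (k + 1)) (H712.cupN z b (k + 1)) ∈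
      IC p h (s + 1 + 2 * (k + 1) + 1) :=
    d_cupN_mem (by rw [hdb]; exact zero_mem _) hdz (k + 1)
  have hsub : Cob.IsWt (Couple.Mul2.deg v w (k + 1)) (c - H712.cupN z b (k + 1)) := by
    rw [sub_eq_add_neg]
    exact hc.add hz1.neg
  obtain ⟨y', hy', hyz⟩ := K.inj_succ (n := s + 1 + 2 * k + 1) hw' hv hsub
    (by
      rw [map_sub]
      exact sub_mem hdc hdz1) (K.sub_wt he he₂) h1.symm
  exact ⟨z, y', hz, hy', hdz, hyz⟩

end Cmp

end Vale.Agent.P257.H545
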