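import Vale.Agent.P257.H545.Cmp
import Vale.Agent.P257.H93.FP
import Vale.Agent.P257.H314.CmpInf

/-!
# P257, package A5 (helper545): the comparison structure for `CobP`

`InfCmp p` : `fI : Cob (Laz / I_∞) → CobP` is an isomorphism on cohomology;
`cmpP H : Cmp p` for `H : InfCmp p`.
-/

namespace Vale.Agent.P257.H545

open Vale.Agent.P251 Vale.Agent.P251.F Vale.Agent.P257.H314 Vale.Agent.P257.H712
  Vale.Agent.P257.H93
open Vale.Agent.P251.S hiding IC

/-- `fI` is an isomorphism on cohomology. -/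
structure InfCmp (p : ℕ) [Fact p.Prime] : Prop where
  inj0 : ∀ {w : ℤ} {z : Cob (QIinf p) 0}, Cob.IsWt w z → Cob.d 0 z = 0 → fI p 0 z = 0 → z = 0
  inj : ∀ {n : ℕ} {w : ℤ} {z : Cob (QIinf p) (n + 1)}, Cob.IsWt w z → Cob.d (n + 1) z = 0 →
    ∀ {y : CobP p n}, IsWtP p n w y → dP n y = fI p (n + 1) z →
      ∃ y' : Cob (QIinf p) n, Cob.IsWt w y' ∧ z = Cob.d n y'
  surj : ∀ {n : ℕ} {w : ℤ} {c : CobP p (n + 1)}, IsWtP p (n + 1) w c → dP (n + 1) c = 0 →
    ∃ (z : Cob (QIinf p) (n + 1)) (e : CobP p n), Cob.IsWt w z ∧ IsWtP p n w e ∧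
      Cob.d (n + 1) z = 0 ∧ fI p (n + 1) z = c + dP n e

theorem dP_cupP_two {p : ℕ} [Fact p.Prime] {a : ℕ} (x : CobP p a) {y : CobP p 2}
    (hy : dP 2 y = 0) : dP (a + 2) (cupP (a := a) (b := 2) x y) =
      cupP (a := a + 1) (b := 2) (dP a x) y := by
  rw [dP_cupP, hy, cupP_zero, map_zero, smul_zero, add_zero]
  apply ext_evG
  intro B _ _ g
  exact evG_castP _ _ _

/-- The comparison structure for `CobP`. -/
noncomputable def cmpP {p : ℕ} [Fact p.Prime] (H : InfCmp p) : Cmp p where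
  X := CobP p
  ring n := inferInstance
  d := dP
  IsWt {n} w x := IsWtP p n w x
  add_wt := IsWtP.add
  neg_wt := IsWtP.neg
  zero_wt {_ w} := isWtP_zero w
  d_wt := IsWtP.dP
  d_d x := dP_dP _ x
  cup := cupP
  cup_wt := IsWtP.cupP
  add_cup := add_cupP
  cup_add := cupP_add
  d_cup_two := dP_cupP_two
  f n := fP p n
  f_IC := fP_IC
  f_d := fP_d
  f_cup := fP_cup
  f_wt := fP_wt
  inj_zero _ hw _ hz hdz hf := inj_zero_of_inf hw (fI p 0)
    (fun _ hz hd hf => H.inj0 hz hd hf) hz hdz hf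
  inj {h n w} _ hw _ hz hdz _ hy hyz := inj_of_inf hw (dP n) (IsWtP p n w) (fI p (n + 1))
    (fun _ hz hd _ hy hyz => H.inj hz hd hy hyz) hz hdz hy hyz
  surj _ hw _ hc hdc := by
    obtain ⟨z, e, hz, he, hdz, hf⟩ := H.surj hc hdc
    obtain ⟨z', hz', hdz', rfl⟩ := surj_of_inf hw hz hdz
    exact ⟨z', e, hz', he, hdz', hf⟩

end Vale.Agent.P257.H545
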