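import Vale.Agent.P251.S.CupRing

/-!
# P257 (helper545): products of cochains with a cochain of degree one and of degree zero

The analogues of `P251.S.AmitsurCup` and `P251.S.CupRing` for a right factor of degree one and for
a left factor of degree zero.
-/

set_option linter.unusedSectionVars false

open CategoryTheory MonoidalCategory Limits Pretriangulated MonObj

universe v u

namespace Vale.Agent.P257.H820

open Vale.Agent.P251.T Vale.Agent.P251.S Vale.Agent.P251.M Vale.Agent.P251.F Vale.Agent.P251.I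

section Monoids

variable {T : Type u} [Category.{v} T] [MonoidalCategory T] [SymmetricCategory T]

/-! ### Right factor of degree one -/

/-- The inclusion of the first `s + 1` vertices. -/
def frontF1 (s : ℕ) : Fin (s + 1) → Fin (s + 2) := fun i => ⟨i, by omega⟩

/-- The inclusion of the last `2` vertices. -/
def backF1 (s : ℕ) : Fin 2 → Fin (s + 2) := fun i => ⟨s + i, by omega⟩

/-- The concatenation `R^{⊗ (s+1)} ⊗ R^{⊗ 2} ⟶ R^{⊗ (s+2)}`, multiplying the last factor of the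
first with the first factor of the second. -/
def conc1 (R : T) [MonObj R] (s : ℕ) : Am R (s + 1) ⊗ Am R 2 ⟶ Am R (s + 2) :=
  ((Am R s ⊗ R) ◁ ((λ_ R).hom ▷ R)) ≫ (α_ (Am R s ⊗ R) R R).inv ≫
    ((α_ (Am R s) R R).hom ▷ R) ≫ ((Am R s ◁ μ[R]) ▷ R)

instance isMonHom_conc1 (R : T) [MonObj R] [IsCommMonObj R] (s : ℕ) : IsMonHom (conc1 R s) := by
  unfold conc1
  infer_instance

lemma inlM_conc1 (R : T) [MonObj R] [IsCommMonObj R] (s : ℕ) :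
    inlM (Am R (s + 1)) (Am R 2) ≫ conc1 R s = inlM (Am R (s + 1)) R := by
  unfold conc1
  rw [inlM_whiskerLeft_assoc, inlM_associator_inv_assoc, inlM_whiskerRight_assoc,
    inlM_associator_assoc, inlM_whiskerRight, ← MonoidalCategory.whiskerLeft_comp_assoc, inlM_mul,
    MonoidalCategory.whiskerLeft_id, Category.id_comp]

lemma inrM_conc1 (R : T) [MonObj R] [IsCommMonObj R] (s : ℕ) :
    inrM (Am R (s + 1)) (Am R 2) ≫ conc1 R s =
      (((λ_ R).hom ≫ inrM (Am R s) R) ▷ R : (𝟙_ T ⊗ R) ⊗ R ⟶ _) := by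
  unfold conc1
  rw [inrM_whiskerLeft_assoc, inrM_associator_inv_assoc]
  simp only [← comp_whiskerRight]
  rw [inrM_associator_assoc, inrM_whiskerLeft, inrM_mul_assoc]

variable (R : T) [MonObj R] [IsCommMonObj R]

lemma conc1_eq (s : ℕ) : conc1 R s = descM (Am.map R (frontF1 s)) (Am.map R (backF1 s)) := by
  apply hom_ext_tensor (X := Am R (s + 1)) (Y := Am R 2)
  · rw [inlM_conc1, inlM_descM]
    symm
    apply Am.map_eq_of
    intro i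
    have h : frontF1 s i = i.castSucc := rfl
    rw [h, Am.v_castSucc]
  · rw [inrM_conc1, inrM_descM]
    symm
    have h1 : IsMonHom ((λ_ R).hom ≫ inrM (Am R s) R) := by infer_instance
    have h2 : inrM (𝟙_ T) R ≫ (λ_ R).hom = 𝟙 R := by
      have h : η[(𝟙_ T)] = 𝟙 (𝟙_ T) := rfl
      rw [inrM, h, id_whiskerRight, Category.comp_id, Iso.inv_hom_id]
    apply Am.map_eq_of
    intro i
    obtain rfl | rfl : i = Fin.last 1 ∨ i = (Fin.last 0).castSucc := by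
      revert i; decide
    · have h : backF1 s (Fin.last 1) = Fin.last (s + 1) := rfl
      rw [h, Am.v_last, Am.v_last, inrM_whiskerRight]
    · have h : backF1 s (Fin.last 0).castSucc = (Fin.last s).castSucc := rfl
      rw [h, Am.v_castSucc, Am.v_castSucc, Am.v_last, Am.v_last,
        Category.assoc, inlM_whiskerRight]
      simp only [Category.assoc]
      rw [reassoc_of% h2]

lemma conc1_aux (A R Y : T) [MonObj R] :
    (A ◁ mulMap R (R ⊗ Y)) ≫ (α_ A R (R ⊗ Y)).inv ≫ (α_ (A ⊗ R) R Y).inv =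
      (α_ A R (R ⊗ R ⊗ Y)).inv ≫ ((A ⊗ R) ◁ ((λ_ (R ⊗ R ⊗ Y)).inv ≫
        (α_ (𝟙_ T) R (R ⊗ Y)).inv ≫ (α_ (𝟙_ T ⊗ R) R Y).inv)) ≫
          (α_ (A ⊗ R) ((𝟙_ T ⊗ R) ⊗ R) Y).inv ≫
        ((((A ⊗ R) ◁ ((λ_ R).hom ▷ R)) ≫ (α_ (A ⊗ R) R R).inv ≫
          ((α_ A R R).hom ▷ R) ≫ ((A ◁ μ[R]) ▷ R)) ▷ Y) := by
  rw [mulMap]
  monoidal

/-! ### Left factor of degree zero -/

/-- Multiplication into the first factor of `R^{⊗ (s+1)}`. -/
def amul (R : T) [MonObj R] : ∀ s : ℕ, R ⊗ Am R (s + 1) ⟶ Am R (s + 1)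
  | 0 => (R ◁ (λ_ R).hom) ≫ μ[R] ≫ (λ_ R).inv
  | s + 1 => (α_ R (Am R (s + 1)) R).inv ≫ (amul R s ▷ R)

omit [SymmetricCategory T] in
lemma amul_zero (R : T) [MonObj R] : amul R 0 = (R ◁ (λ_ R).hom) ≫ μ[R] ≫ (λ_ R).inv := rfl

omit [SymmetricCategory T] in
lemma amul_succ (R : T) [MonObj R] (s : ℕ) :
    amul R (s + 1) = (α_ R (Am R (s + 1)) R).inv ≫ (amul R s ▷ R) := rfl

instance isMonHom_amul (s : ℕ) : IsMonHom (amul R s) := by
  induction s with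
  | zero =>
    rw [amul_zero]
    infer_instance
  | succ s ih =>
    rw [amul_succ]
    infer_instance

lemma inlM_amul (s : ℕ) : inlM R (Am R (s + 1)) ≫ amul R s = Am.v R (0 : Fin (s + 1)) := by
  induction s with
  | zero =>
    have h1 : Am.v R (0 : Fin (0 + 1)) = inrM (Am R 0) R := Am.v_last R 0
    have h2 : inrM (Am R 0) R = (λ_ R).inv := by
      have h : η[Am R 0] = 𝟙 (𝟙_ T) := rfl
      rw [inrM, h]
      change (λ_ R).inv ≫ (𝟙 (𝟙_ T) ▷ R) = _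
      rw [id_whiskerRight, Category.comp_id]
    rw [amul_zero, h1, h2]
    have h3 : inlM R (Am R (0 + 1)) ≫ (R ◁ (λ_ R).hom) = inlM R R := by
      change inlM R (𝟙_ T ⊗ R) ≫ (R ◁ (λ_ R).hom) = inlM R R
      rw [inlM_whiskerLeft]
    rw [reassoc_of% h3, inlM_mul_assoc]
  | succ s ih =>
    have h1 : Am.v R (0 : Fin (s + 1 + 1)) = Am.v R (0 : Fin (s + 1)) ≫ inlM (Am R (s + 1)) R :=
      Am.v_castSucc R (0 : Fin (s + 1))
    rw [amul_succ, h1, ← ih]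
    have h2 : inlM R (Am R (s + 1 + 1)) ≫ (α_ R (Am R (s + 1)) R).inv =
        inlM R (Am R (s + 1)) ≫ inlM (R ⊗ Am R (s + 1)) R :=
      inlM_associator_inv R (Am R (s + 1)) R
    rw [reassoc_of% h2, inlM_whiskerRight, Category.assoc]

lemma inrM_amul (s : ℕ) : inrM R (Am R (s + 1)) ≫ amul R s = 𝟙 _ := by
  induction s with
  | zero =>
    rw [amul_zero]
    have h3 : inrM R (Am R (0 + 1)) ≫ (R ◁ (λ_ R).hom) = (λ_ R).hom ≫ inrM R R := by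
      change inrM R (𝟙_ T ⊗ R) ≫ (R ◁ (λ_ R).hom) = (λ_ R).hom ≫ inrM R R
      rw [inrM_whiskerLeft]
    rw [reassoc_of% h3, inrM_mul_assoc, Iso.hom_inv_id]
  | succ s ih =>
    rw [amul_succ]
    have h2 : inrM R (Am R (s + 1 + 1)) ≫ (α_ R (Am R (s + 1)) R).inv =
        inrM R (Am R (s + 1)) ▷ R :=
      inrM_associator_inv R (Am R (s + 1)) R
    rw [reassoc_of% h2, ← comp_whiskerRight, ih, id_whiskerRight]

/-- The product `R^{⊗ 1} ⊗ R^{⊗ (s+1)} ⟶ R^{⊗ (s+1)}` into the first factor. -/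
def concL (R : T) [MonObj R] (s : ℕ) : Am R 1 ⊗ Am R (s + 1) ⟶ Am R (s + 1) :=
  ((λ_ R).hom ▷ Am R (s + 1)) ≫ amul R s

instance isMonHom_concL (s : ℕ) : IsMonHom (concL R s) := by
  unfold concL
  infer_instance

lemma concL_eq (s : ℕ) : concL R s = descM (Am.map R (fun _ => 0 : Fin 1 → Fin (s + 1))) (𝟙 _) := by
  apply hom_ext_tensor (X := Am R 1) (Y := Am R (s + 1))
  · rw [inlM_descM]
    symm
    apply Am.map_eq_of
    intro i
    obtain rfl : i = Fin.last 0 := by revert i; decide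
    have h2 : inrM (𝟙_ T) R ≫ (λ_ R).hom = 𝟙 R := by
      have h : η[(𝟙_ T)] = 𝟙 (𝟙_ T) := rfl
      rw [inrM, h, id_whiskerRight, Category.comp_id, Iso.inv_hom_id]
    have h3 : inlM (Am R 1) (Am R (s + 1)) ≫ ((λ_ R).hom ▷ Am R (s + 1)) =
        (λ_ R).hom ≫ inlM R (Am R (s + 1)) := by
      change inlM (𝟙_ T ⊗ R) (Am R (s + 1)) ≫ ((λ_ R).hom ▷ Am R (s + 1)) = _
      rw [inlM_whiskerRight]
    rw [Am.v_last, concL, reassoc_of% h3]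
    change inrM (𝟙_ T) R ≫ (λ_ R).hom ≫ _ = _
    rw [reassoc_of% h2, inlM_amul]
  · have h3 : inrM (Am R 1) (Am R (s + 1)) ≫ ((λ_ R).hom ▷ Am R (s + 1)) =
        inrM R (Am R (s + 1)) := by
      change inrM (𝟙_ T ⊗ R) (Am R (s + 1)) ≫ ((λ_ R).hom ▷ Am R (s + 1)) = _
      rw [inrM_whiskerRight]
    rw [inrM_descM, concL, reassoc_of% h3, inrM_amul]

/-- The product in terms of faces, right factor of degree one. -/
lemma gmul_conc1 (E : EvenSpheres T) {w v u : ℤ}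
    (h : w + v = u) (s : ℕ) (a : E.S w ⟶ Am R (s + 1)) (b : E.S v ⟶ Am R 2) :
    EvenSpheres.gmul h (a ≫ Am.map R (frontF1 s)) (b ≫ Am.map R (backF1 s)) =
      E.ext h a b ≫ conc1 R s := by
  rw [conc1_eq, descM, EvenSpheres.gmul, EvenSpheres.ext_comp, Category.assoc]

/-- The product in terms of faces, left factor of degree zero. -/
lemma gmul_concL (E : EvenSpheres T) {w v u : ℤ}
    (h : w + v = u) (s : ℕ) (a : E.S w ⟶ Am R 1) (b : E.S v ⟶ Am R (s + 1)) :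
    EvenSpheres.gmul h (a ≫ Am.map R (fun _ => 0 : Fin 1 → Fin (s + 1))) b =
      E.ext h a b ≫ concL R s := by
  have h1 : EvenSpheres.gmul h (a ≫ Am.map R (fun _ => 0 : Fin 1 → Fin (s + 1))) b =
      EvenSpheres.gmul h (a ≫ Am.map R (fun _ => 0 : Fin 1 → Fin (s + 1))) (b ≫ 𝟙 _) := by
    rw [Category.comp_id]
  rw [h1, concL_eq, descM, EvenSpheres.gmul, EvenSpheres.ext_comp, Category.assoc]

omit [IsCommMonObj R] in
lemma mulMap_zero_aux (Y : T) :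
    mulMap R Y ≫ (λ_ (R ⊗ Y)).inv ≫ (α_ (𝟙_ T) R Y).inv =
      (R ◁ ((λ_ (R ⊗ Y)).inv ≫ (α_ (𝟙_ T) R Y).inv)) ≫ (α_ R (𝟙_ T ⊗ R) Y).inv ≫
        (((R ◁ (λ_ R).hom) ≫ μ[R] ≫ (λ_ R).inv) ▷ Y) := by
  rw [mulMap]
  monoidal

end Monoids

variable {T : Type u} [Category.{v} T] [Preadditive T] [HasZeroObject T] [HasShift T ℤ]
  [∀ n : ℤ, (shiftFunctor T n).Additive] [Pretriangulated T] [MonoidalCategory T]
  [SymmetricCategory T] [TensorTriangulated T]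

/-- outer multiplication `R ⊗ Q (s+1) Y ⟶ Q (s+1) Y` -/
def om {R : T} [MonObj R] (U : UnitCof R) :
    ∀ (s : ℕ) (Y : T), R ⊗ U.cobar.Q (s + 1) Y ⟶ U.cobar.Q (s + 1) Y
  | 0, Y => mulMap R Y
  | s + 1, Y => om U s (R ⊗ Y)

/-- inner product with a cochain of degree `1` -/
def cup1 {R : T} [MonObj R] (U : UnitCof R) {Y' Y : T} (z : Y' ⟶ U.cobar.Q 2 Y) (s : ℕ) :
    U.cobar.Q (s + 1) Y' ⟶ U.cobar.Q (s + 2) Y :=
  U.cobar.Qm s ((R ◁ z) ≫ mulMap R (R ⊗ Y))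

section

variable {R : T} [MonObj R] (U : UnitCof R)

/-- The product with a cochain of degree one in terms of the tensor powers of `R`. -/
lemma cup1_θ {Y' Y : T} (z : Y' ⟶ U.cobar.Q 2 Y) (s : ℕ) :
    cup1 U z s ≫ (U.θ (s + 2) Y).hom =
      (U.θ (s + 1) Y').hom ≫ (Am R (s + 1) ◁ (z ≫ (U.θ 2 Y).hom)) ≫
        (α_ (Am R (s + 1)) (Am R 2) Y).inv ≫ (conc1 R s ▷ Y) := by
  have h3 : (U.θ (s + 2) Y).hom = (U.θ s (R ⊗ R ⊗ Y)).hom ≫
      (α_ (Am R s) R (R ⊗ Y)).inv ≫ (α_ (Am R (s + 1)) R Y).inv := by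
    rw [UnitCof.θ_succ, UnitCof.θ_succ, Iso.trans_hom, Iso.trans_hom, Category.assoc]
    rfl
  have h3' : (U.θ 2 Y).hom = (λ_ (R ⊗ R ⊗ Y)).inv ≫
      (α_ (𝟙_ T) R (R ⊗ Y)).inv ≫ (α_ (𝟙_ T ⊗ R) R Y).inv := by
    rw [UnitCof.θ_succ, UnitCof.θ_succ, Iso.trans_hom, Iso.trans_hom, Category.assoc]
    rfl
  have hc := conc1_aux (Am R s) R Y
  have hn := U.θ_naturality s ((R ◁ z) ≫ mulMap R (R ⊗ Y))
  have h1 : cup1 U z s ≫ (U.θ (s + 2) Y).hom = (U.θ s (R ⊗ Y')).hom ≫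
      (Am R s ◁ (R ◁ z)) ≫ (Am R s ◁ mulMap R (R ⊗ Y)) ≫
        (α_ (Am R s) R (R ⊗ Y)).inv ≫ (α_ (Am R s ⊗ R) R Y).inv := by
    rw [h3]
    refine (reassoc_of% hn) _ |>.trans ?_
    rw [MonoidalCategory.whiskerLeft_comp, Category.assoc]
  have h2 : (U.θ (s + 1) Y').hom = (U.θ s (R ⊗ Y')).hom ≫ (α_ (Am R s) R Y').inv := by
    rw [UnitCof.θ_succ, Iso.trans_hom]
    rfl
  rw [h1, h2, hc, h3']
  simp only [Category.assoc, conc1, MonoidalCategory.whiskerLeft_comp]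
  rw [associator_inv_naturality_right_assoc]

/-- The product of cochains, right factor of degree one. -/
lemma cup1_conc (k : ℤ) {X : T} (s : ℕ) (f : X ⟶ U.cobar.Q (s + 1) (𝟙_ T))
    (z : (𝟙_ T)⟦k⟧ ⟶ U.cobar.Q 2 (𝟙_ T)) :
    f⟦k⟧' ≫ (U.κQ k (s + 1) (𝟙_ T) ≫ cup1 U z s) ≫ (U.θU (s + 2)).hom =
      (tensorSph k X).inv ≫ ((f ≫ (U.θU (s + 1)).hom) ⊗ₘ (z ≫ (U.θU 2).hom)) ≫ conc1 R s := by
  have h1 : (α_ (Am R (s + 1)) (Am R 2) (𝟙_ T)).inv ≫ (conc1 R s ▷ 𝟙_ T) ≫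
      (ρ_ (Am R (s + 2))).hom = (Am R (s + 1) ◁ (ρ_ (Am R 2)).hom) ≫ conc1 R s := by
    rw [rightUnitor_naturality, rightUnitor_tensor_hom_assoc, Iso.inv_hom_id_assoc]
  have h2 : U.κQ k (s + 1) (𝟙_ T) ≫ (U.θ (s + 1) ((𝟙_ T)⟦k⟧)).hom =
      ((U.θU (s + 1)).hom)⟦k⟧' ≫ (tensorSph k (Am R (s + 1))).inv := by
    rw [UnitCof.κQ_θ, UnitCof.θU, tensorSph, Iso.trans_hom, Iso.trans_inv, Functor.map_comp,
      Functor.mapIso_inv,
      Category.assoc, ← Functor.map_comp_assoc (shiftFunctor T k) (ρ_ _).hom, Iso.hom_inv_id,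
      CategoryTheory.Functor.map_id, Category.id_comp]
    rfl
  have h3 : ((f ≫ (U.θU (s + 1)).hom) ▷ ((𝟙_ T)⟦k⟧)) = (tensorSph k X).hom ≫
      (f ≫ (U.θU (s + 1)).hom)⟦k⟧' ≫ (tensorSph k (Am R (s + 1))).inv := by
    rw [← tensorSph_naturality_assoc, Iso.hom_inv_id, Category.comp_id]
  calc _ = f⟦k⟧' ≫ U.κQ k (s + 1) (𝟙_ T) ≫ (cup1 U z s ≫ (U.θ (s + 2) (𝟙_ T)).hom) ≫
        (ρ_ (Am R (s + 2))).hom := by
        rw [UnitCof.θU, Iso.trans_hom]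
        simp only [Category.assoc]
    _ = f⟦k⟧' ≫ (U.κQ k (s + 1) (𝟙_ T) ≫ (U.θ (s + 1) ((𝟙_ T)⟦k⟧)).hom) ≫
        (Am R (s + 1) ◁ (z ≫ (U.θ 2 (𝟙_ T)).hom)) ≫ (Am R (s + 1) ◁ (ρ_ (Am R 2)).hom) ≫
          conc1 R s := by
        rw [cup1_θ, ← h1]
        simp only [Category.assoc]
    _ = (tensorSph k X).inv ≫ ((f ≫ (U.θU (s + 1)).hom) ▷ ((𝟙_ T)⟦k⟧)) ≫
        (Am R (s + 1) ◁ (z ≫ (U.θU 2).hom)) ≫ conc1 R s := by
        rw [h2, h3, ← MonoidalCategory.whiskerLeft_comp_assoc,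
          Category.assoc, Functor.map_comp]
        simp only [Category.assoc]
        rw [Iso.inv_hom_id_assoc]
        rfl
    _ = _ := by
        rw [tensorHom_def]
        simp only [Category.assoc]

/-- The outer multiplication in terms of the tensor powers of `R`. -/
lemma om_θ (s : ℕ) (Y : T) :
    om U s Y ≫ (U.θ (s + 1) Y).hom =
      (R ◁ (U.θ (s + 1) Y).hom) ≫ (α_ R (Am R (s + 1)) Y).inv ≫ (amul R s ▷ Y) := by
  induction s generalizing Y with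
  | zero =>
    have h : (U.θ (0 + 1) Y).hom = (λ_ (R ⊗ Y)).inv ≫ (α_ (𝟙_ T) R Y).inv := rfl
    rw [h]
    exact mulMap_zero_aux R Y
  | succ s ih =>
    have h2 : (U.θ (s + 1 + 1) Y).hom =
        (U.θ (s + 1) (R ⊗ Y)).hom ≫ (α_ (Am R (s + 1)) R Y).inv := rfl
    have h1 : om U (s + 1) Y ≫ (U.θ (s + 1 + 1) Y).hom =
        (om U s (R ⊗ Y) ≫ (U.θ (s + 1) (R ⊗ Y)).hom) ≫ (α_ (Am R (s + 1)) R Y).inv := by
      rw [h2, Category.assoc]
      rfl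
    rw [h1, ih (R ⊗ Y), h2, amul_succ]
    simp only [Category.assoc, MonoidalCategory.whiskerLeft_comp, comp_whiskerRight]
    have h4 : (amul R s ▷ (R ⊗ Y)) ≫ (α_ (Am R (s + 1)) R Y).inv =
        (α_ (R ⊗ Am R (s + 1)) R Y).inv ≫ ((amul R s ▷ R) ▷ Y) := by
      rw [associator_inv_naturality_left]
    rw [h4]
    congr 1
    have h5 : (α_ R (Am R (s + 1)) (R ⊗ Y)).inv ≫ (α_ (R ⊗ Am R (s + 1)) R Y).inv =
        (R ◁ (α_ (Am R (s + 1)) R Y).inv) ≫ (α_ R (Am R (s + 1) ⊗ R) Y).inv ≫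
          ((α_ R (Am R (s + 1)) R).inv ▷ Y) := by
      monoidal
    rw [reassoc_of% h5]

/-- The product of cochains, left factor of degree zero. -/
lemma om_conc (k : ℤ) {X : T} (s : ℕ) (f : X ⟶ U.cobar.Q 1 (𝟙_ T))
    (z : (𝟙_ T)⟦k⟧ ⟶ U.cobar.Q (s + 1) (𝟙_ T)) :
    f⟦k⟧' ≫ ((csh R k (𝟙_ T)).inv ≫ (R ◁ z) ≫ om U s (𝟙_ T)) ≫ (U.θU (s + 1)).hom =
      (tensorSph k X).inv ≫ ((f ≫ (U.θU 1).hom) ⊗ₘ (z ≫ (U.θU (s + 1)).hom)) ≫ concL R s := by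
  have h1 : (α_ R (Am R (s + 1)) (𝟙_ T)).inv ≫ (amul R s ▷ 𝟙_ T) ≫
      (ρ_ (Am R (s + 1))).hom = (R ◁ (ρ_ (Am R (s + 1))).hom) ≫ amul R s := by
    rw [rightUnitor_naturality, rightUnitor_tensor_hom_assoc, Iso.inv_hom_id_assoc]
  have h0 : om U s (𝟙_ T) ≫ (U.θU (s + 1)).hom = (R ◁ (U.θU (s + 1)).hom) ≫ amul R s := by
    rw [UnitCof.θU, Iso.trans_hom, ← Category.assoc, om_θ]
    simp only [Category.assoc]
    rw [h1, MonoidalCategory.whiskerLeft_comp, Category.assoc]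
  have h2 : (U.θU 1).hom ≫ (λ_ R).hom = (ρ_ R).hom := by
    have h : (U.θU 1).hom = ((λ_ (R ⊗ 𝟙_ T)).inv ≫ (α_ (𝟙_ T) R (𝟙_ T)).inv) ≫
      (ρ_ (𝟙_ T ⊗ R)).hom := rfl
    rw [h]
    monoidal
  have h3 : (f ≫ (ρ_ R).hom) ▷ ((𝟙_ T)⟦k⟧) = (tensorSph k X).hom ≫
      (f ≫ (ρ_ R).hom)⟦k⟧' ≫ (tensorSph k R).inv := by
    rw [← tensorSph_naturality_assoc, Iso.hom_inv_id, Category.comp_id]
  have h4 : (f ≫ (ρ_ R).hom)⟦k⟧' ≫ (tensorSph k R).inv = f⟦k⟧' ≫ (csh R k (𝟙_ T)).inv := by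
    rw [tensorSph, Iso.trans_inv, Functor.mapIso_inv, Functor.map_comp, Category.assoc,
      ← Functor.map_comp_assoc (shiftFunctor T k) (ρ_ _).hom, Iso.hom_inv_id,
      CategoryTheory.Functor.map_id, Category.id_comp]
    rfl
  have h5 : ((f ≫ (U.θU 1).hom) ⊗ₘ (z ≫ (U.θU (s + 1)).hom)) ≫ concL R s =
      ((f ≫ (ρ_ R).hom) ▷ ((𝟙_ T)⟦k⟧)) ≫ (R ◁ (z ≫ (U.θU (s + 1)).hom)) ≫ amul R s := by
    have h6 : ((f ≫ (U.θU 1).hom) ⊗ₘ (z ≫ (U.θU (s + 1)).hom)) ≫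
        ((λ_ R).hom ▷ Am R (s + 1)) =
        ((f ≫ (ρ_ R).hom) ▷ ((𝟙_ T)⟦k⟧)) ≫ (R ◁ (z ≫ (U.θU (s + 1)).hom)) := by
      rw [← tensorHom_id, tensorHom_comp_tensorHom, Category.comp_id, tensorHom_def,
        Category.assoc, h2]
    rw [concL, reassoc_of% h6]
  rw [h5, h3, h4]
  simp only [Category.assoc]
  rw [Iso.inv_hom_id_assoc, h0, MonoidalCategory.whiskerLeft_comp]
  simp only [Category.assoc]

end

/-! ### Realizing the products -/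

variable [HasCoproducts.{0} T] {M : MUData T} {U : UnitCof M.R}

/-- (S3a) -/
theorem Realizes.cup1 {s : ℕ} {w v w' t k t' : ℤ} {α : (stdEven T).S w ≅ (𝟙_ T)⟦t⟧}
    {β : (stdEven T).S v ≅ (𝟙_ T)⟦k⟧} {c : Cob Laz s} {b : Cob Laz 1}
    {f : (𝟙_ T)⟦t⟧ ⟶ U.cobar.Q (s + 1) (𝟙_ T)} {z : (𝟙_ T)⟦k⟧ ⟶ U.cobar.Q 2 (𝟙_ T)}
    (hf : Realizes M U α c f) (hz : Realizes M U β b z) (hw : w + v = w') (ht : t + k = t') :
    Realizes M U (prodSph α β hw ht) (Cob.cup c b)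
      (sh t k t' ht f ≫ U.κQ k (s + 1) (𝟙_ T) ≫ cup1 U z s) := by
  have h1 : M.ev (s + 1) (Cob.map (Cob.front s 1) c) =
      HRing.of (stdEven T) (Am M.R (s + 2)) w
        ((α.hom ≫ f ≫ (U.θU (s + 1)).hom) ≫ Am.map M.R (frontF1 s)) := by
    rw [← M.ev_map, hf, HRing.map_of]
    rfl
  have h2 : M.ev (s + 1) (Cob.map (Cob.back s 1) b) =
      HRing.of (stdEven T) (Am M.R (s + 2)) v
        ((β.hom ≫ z ≫ (U.θU 2).hom) ≫ Am.map M.R (backF1 s)) := by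
    rw [← M.ev_map, hz, HRing.map_of]
    rfl
  have h3 : (prodSph α β hw ht).hom ≫ (sh t k t' ht f ≫ U.κQ k (s + 1) (𝟙_ T) ≫
      H820.cup1 U z s) ≫ (U.θU (s + 2)).hom =
      (stdEven T).ext hw (α.hom ≫ f ≫ (U.θU (s + 1)).hom) (β.hom ≫ z ≫ (U.θU 2).hom) ≫
        conc1 M.R s := by
    have h4 := cup1_conc U k s f z
    simp only [Category.assoc] at h4
    simp only [prodSph, Iso.trans_hom, Iso.symm_hom, Iso.app_inv, sh, AddEquiv.coe_mk,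
      Equiv.coe_fn_mk, Category.assoc, Iso.inv_hom_id_app_assoc]
    rw [h4, Iso.hom_inv_id_assoc, EvenSpheres.ext, tensorIso_hom,
      tensorHom_comp_tensorHom_assoc, Category.assoc]
  rw [Realizes, Cob.cup, map_mul]
  refine (congrArg₂ (· * ·) h1 h2).trans ?_
  refine (of_mul_of hw _ _).trans ?_
  rw [gmul_conc1, ← h3]

/-- (S3b) -/
theorem Realizes.smul0 {s : ℕ} {w v w' t k t' : ℤ} {α : (stdEven T).S w ≅ (𝟙_ T)⟦t⟧}
    {β : (stdEven T).S v ≅ (𝟙_ T)⟦k⟧} {c : Cob Laz 0} {b : Cob Laz s}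
    {f : (𝟙_ T)⟦t⟧ ⟶ U.cobar.Q 1 (𝟙_ T)} {z : (𝟙_ T)⟦k⟧ ⟶ U.cobar.Q (s + 1) (𝟙_ T)}
    (hf : Realizes M U α c f) (hz : Realizes M U β b z) (hw : w + v = w') (ht : t + k = t') :
    Realizes M U (prodSph α β hw ht) (Cob.map (fun _ => 0 : Fin 1 → Fin (s + 1)) c * b)
      (sh t k t' ht f ≫ (csh M.R k (𝟙_ T)).inv ≫ (M.R ◁ z) ≫ om U s (𝟙_ T)) := by
  have h1 : M.ev s (Cob.map (fun _ => 0 : Fin 1 → Fin (s + 1)) c) =
      HRing.of (stdEven T) (Am M.R (s + 1)) w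
        ((α.hom ≫ f ≫ (U.θU 1).hom) ≫ Am.map M.R (fun _ => 0 : Fin 1 → Fin (s + 1))) := by
    rw [← M.ev_map, hf, HRing.map_of]
  have h3 : (prodSph α β hw ht).hom ≫ (sh t k t' ht f ≫ (csh M.R k (𝟙_ T)).inv ≫ (M.R ◁ z) ≫
      om U s (𝟙_ T)) ≫ (U.θU (s + 1)).hom =
      (stdEven T).ext hw (α.hom ≫ f ≫ (U.θU 1).hom) (β.hom ≫ z ≫ (U.θU (s + 1)).hom) ≫
        concL M.R s := by
    have h4 := om_conc U k s f z
    simp only [Category.assoc] at h4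
    simp only [prodSph, Iso.trans_hom, Iso.symm_hom, Iso.app_inv, sh, AddEquiv.coe_mk,
      Equiv.coe_fn_mk, Category.assoc, Iso.inv_hom_id_app_assoc]
    rw [h4, Iso.hom_inv_id_assoc, EvenSpheres.ext, tensorIso_hom,
      tensorHom_comp_tensorHom_assoc, Category.assoc]
  rw [Realizes, map_mul]
  refine (congrArg₂ (· * ·) h1 hz).trans ?_
  refine (of_mul_of hw _ _).trans ?_
  rw [gmul_concL, ← h3]

end Vale.Agent.P257.H820
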