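import Vale.Agent.P257.H327.Enum5

/-!
# P257 (helper545): two more empty groups

No monomials in `(2(p-1)k+6, 2p²+4p+1+c+k)`, `k ≥ 1`, `c ≤ 1`.
-/

namespace Vale.Agent.P257.H545

open Vale.Agent.P257.H327 Vale.Agent.P257.H327.Mon

theorem lift_k_le (p k s W c : ℕ) (hp : 11 ≤ p) (hc : c ≤ 1) (hl : p * s ≤ 2 * W + (p - 2))
    (hs : s + 2 * k = 2 * k * p + 6) (hW : W = 2 * p ^ 2 + 4 * p + 1 + c + k) : k ≤ 2 := by
  subst hW
  by_contra hk
  push Not at hk
  zify [show 2 ≤ p by omega] at *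
  have h1 : (p : ℤ) * s = p * (2 * k * p + 6 - 2 * k) := by
    congr 1; linarith
  have h2 : (3 : ℤ) * (p * p - p - 1) ≤ k * (p * p - p - 1) := by
    apply mul_le_mul_of_nonneg_right
    · linarith
    · nlinarith
  nlinarith

variable {p w0 w1 w2 s a0 a1 a2 a3 c0 c1 c2 d0 d1 f x0 x1 x2 y0 y1 z β γ : ℤ}

theorem lift_int (h : Dig p w0 4 2 s a0 a1 a2 a3 c0 c1 c2 d0 d1 f x0 x1 x2 y0 y1 z β γ)
    (hp : 11 ≤ p) {k : ℤ} (hk : 1 ≤ k) (hk2 : k ≤ 2) (hs' : s = 2 * (p - 1) * k + 6) : False := by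
  have he := h.eq
  obtain ⟨ha0, ha1, ha2, ha3, hc0, hc1, hc2, hd0, hd1, hf, ha0', ha1', ha2', ha3', hc0', hc1',
    hc2', hd0', hd1', hf', hx0, hx1, hx2, hy0, hy1, hz, e0, e2, e3, e1, hs⟩ := h
  have hβ : -2 ≤ β := by linarith
  have hγ0 : 0 ≤ γ := by linarith
  have hγ : γ = 0 := by
    by_contra hc
    have hc' : 1 ≤ γ := by omega
    have i1 : 0 ≤ p * (β + 2) := by apply mul_nonneg <;> linarith
    have i2 : 0 ≤ p ^ 2 * (γ - 1) := by
      apply mul_nonneg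
      · positivity
      · linarith
    nlinarith
  subst hγ
  have g1 : a3 = 0 := by linarith
  have g2 : c2 = 0 := by linarith
  have g3 : d1 = 0 := by linarith
  have g4 : f = 0 := by linarith
  have g5 : x2 = 0 := by linarith
  have g6 : y1 = 0 := by linarith
  have g7 : z = 0 := by linarith
  subst g1 g2 g3 g4 g5 g6 g7
  have hβ0 : β ≤ 0 := by
    by_contra hc
    push Not at hc
    have i1 : 0 ≤ p * (β - 1) := by apply mul_nonneg <;> linarith
    linarith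
  subst hs'
  have hk' : k = 1 ∨ k = 2 := by omega
  have hβ' : β = -2 ∨ β = -1 ∨ β = 0 := by omega
  rcases hk' with rfl | rfl <;> rcases hβ' with rfl | rfl | rfl <;> omega

theorem no_mon_lift (p k c : ℕ) (hp : 11 ≤ p) (hk : 1 ≤ k) (hc : c ≤ 1) (x : Mon)
    (hs : x.s + 2 * k = 2 * k * p + 6) (hW : x.W p = 2 * p ^ 2 + 4 * p + 1 + c + k) : False := by
  have hp2 : 2 ≤ p := by omega
  have hk2 := lift_k_le p k _ _ c hp hc (line hp2 x) hs hW
  have hW4 : x.W p < p ^ 4 := by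
    rw [hW]
    have h1 : 11 * p ^ 2 ≤ p ^ 3 := by
      rw [pow_succ p 2, mul_comm]; exact Nat.mul_le_mul_left _ hp
    have h2 : 11 * p ^ 3 ≤ p ^ 4 := by
      rw [pow_succ p 3, mul_comm]; exact Nat.mul_le_mul_left _ hp
    have h4 : 11 * p ≤ p ^ 2 := by nlinarith
    omega
  obtain ⟨β, γ, hd⟩ := exists_dig p (1 + c + k) 4 2 hp (by positivity) (by
    have : ((1 + c + k : ℕ) : ℤ) ≤ 4 := by exact_mod_cast (by omega : 1 + c + k ≤ 4)
    push_cast at this
    exact this) x hW4 (by rw [hW]; push_cast; ring)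
  have hs' : (x.s : ℤ) = 2 * ((p : ℤ) - 1) * k + 6 := by
    have : (x.s : ℤ) + 2 * k = 2 * k * p + 6 := by exact_mod_cast hs
    linarith
  exact lift_int hd (by exact_mod_cast hp) (by exact_mod_cast hk) (by exact_mod_cast hk2) hs'

end Vale.Agent.P257.H545
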