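import Vale.Agent.P257.H545.K1
import Vale.Agent.P257.H327.Enum1
import Vale.Agent.P257.H327.Enum2
import Vale.Agent.P257.H545.EnumLift
import Vale.Agent.P257.H712.Main

/-!
# P257, package A5 (helper545): the vanishing statements from the facts on the dual reduced powers

`Facts K b0 h14`: the facts on the cohomology of the cobar complex `K.X` of the dual reduced powers
which are used in the construction of `V(4)`.

* `Facts.v4Van`, `Facts.prodVan`, `Facts.liftVan`, `Facts.algOnto`.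
-/

namespace Vale.Agent.P257.H545

open Vale.Agent.P251 Vale.Agent.P251.F Vale.Agent.P257.H314 Vale.Agent.P257.H712
open Vale.Agent.P251.S hiding IC
open Vale.Agent.P257.H327 (Mon)

namespace Cmp

variable {p : ℕ} (K : Cmp p)

/-- The facts on the cohomology of `K.X`.  Weights are written `(p - 1) W`. -/
structure Facts (b0 : K.X 2) (h14 : K.X 1) : Prop where
  /-- the `E₁`-bound -/
  bound : ∀ (s W : ℕ), (∀ x : Mon, x.s = s → x.W p ≠ W) → K.Van s (((p : ℤ) - 1) * W)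
  /-- multiplication by `b_{1,0}` onto the group of the `p`-th target -/
  kappa_onto : ∀ j : ℕ, j + p + 3 ≤ p ^ 2 →
    K.OntoR b0 ((p : ℤ) * (p - 1)) (5 + 2 * j) (((p : ℤ) - 1) * (2 * p ^ 2 + 4 * p + 1 + p * j))
  /-- multiplications by `b_{1,1}` -/
  alpha_step1 : ∀ j : ℕ, j + 3 ≤ p → K.Van (5 + 2 * j) (((p : ℤ) - 1) * (2 * p ^ 2 + 3 * p + 3 +
    p ^ 2 * j)) → K.Van (5 + 2 * (j + 1)) (((p : ℤ) - 1) * (2 * p ^ 2 + 3 * p + 3 +
    p ^ 2 * ((j + 1 : ℕ) : ℤ)))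
  /-- multiplications by `b_{1,0}` -/
  alpha_step0 : ∀ j : ℕ, j + 3 ≤ p → K.Van (2 * p + 1 + 2 * j) (((p : ℤ) - 1) * (p ^ 3 + 3 * p + 3 +
    p * j)) → K.Van (2 * p + 1 + 2 * (j + 1)) (((p : ℤ) - 1) * (p ^ 3 + 3 * p + 3 +
    p * ((j + 1 : ℕ) : ℤ)))
  /-- multiplications by `b_{1,0}` -/
  gamma_step : ∀ j : ℕ, j + 2 * p + 3 ≤ p ^ 2 → K.Van (7 + 2 * j) (((p : ℤ) - 1) *
    (3 * p ^ 2 + 4 * p + p * j)) → K.Van (7 + 2 * (j + 1)) (((p : ℤ) - 1) *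
    (3 * p ^ 2 + 4 * p + p * ((j + 1 : ℕ) : ℤ)))
  /-- the group `α` -/
  alpha : K.Van 5 (((p : ℤ) - 1) * (2 * p ^ 2 + 3 * p + 3))
  /-- the group `β` -/
  beta : K.Van 6 (((p : ℤ) - 1) * (2 * p ^ 2 + 4 * p + 2))
  /-- the group `γ` -/
  gamma : K.Van 7 (((p : ℤ) - 1) * (3 * p ^ 2 + 4 * p))
  /-- `δ`: the multiplication by `h_{1,4}` is injective -/
  delta : K.InjR h14 (((p : ℤ) - 1) * p ^ 4) (2 * (p - 1)) (((p : ℤ) - 1) * (Wn p 4 + 1))

/-- Iterated steps. -/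
lemma iter_step {P : ℕ → Prop} (n : ℕ) (h0 : P 0) (h : ∀ j < n, P j → P (j + 1)) : P n := by
  induction n with
  | zero => exact h0
  | succ n ih => exact h n (Nat.lt_succ_self n) (ih fun j hj => h j (by omega))

variable {K} {b0 : K.X 2} {h14 : K.X 1}

theorem Facts.neg_b0 (F : K.Facts b0 h14) : K.Facts (-b0) h14 where
  bound := F.bound
  kappa_onto j hj := (F.kappa_onto j hj).neg
  alpha_step1 := F.alpha_step1
  alpha_step0 := F.alpha_step0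
  gamma_step := F.gamma_step
  alpha := F.alpha
  beta := F.beta
  gamma := F.gamma
  delta := F.delta

/-- The group of the second target. -/
theorem Facts.van_two (F : K.Facts b0 h14) (hp : 11 ≤ p) :
    K.Van (4 * p - 3) (((p : ℤ) - 1) * (p ^ 3 + p ^ 2 + p + 3)) := by
  have h1 : K.Van (5 + 2 * (p - 2)) (((p : ℤ) - 1) * (2 * p ^ 2 + 3 * p + 3 +
      p ^ 2 * ((p - 2 : ℕ) : ℤ))) :=
    iter_step (P := fun j => K.Van (5 + 2 * j) (((p : ℤ) - 1) * (2 * p ^ 2 + 3 * p + 3 +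
      p ^ 2 * (j : ℤ)))) (p - 2) (by simpa using F.alpha)
      fun j hj h => F.alpha_step1 j (by omega) h
  have e1 : 5 + 2 * (p - 2) = 2 * p + 1 + 2 * 0 := by omega
  have e2 : ((p : ℤ) - 1) * (2 * p ^ 2 + 3 * p + 3 + p ^ 2 * ((p - 2 : ℕ) : ℤ)) =
      ((p : ℤ) - 1) * (p ^ 3 + 3 * p + 3 + p * ((0 : ℕ) : ℤ)) := by
    rw [Nat.cast_sub (by omega)]
    push_cast
    ring
  rw [e1, e2] at h1
  have h2 : K.Van (2 * p + 1 + 2 * (p - 2)) (((p : ℤ) - 1) * (p ^ 3 + 3 * p + 3 +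
      p * ((p - 2 : ℕ) : ℤ))) :=
    iter_step (P := fun j => K.Van (2 * p + 1 + 2 * j) (((p : ℤ) - 1) * (p ^ 3 + 3 * p + 3 +
      p * (j : ℤ)))) (p - 2) h1 fun j hj h => F.alpha_step0 j (by omega) h
  have e3 : 2 * p + 1 + 2 * (p - 2) = 4 * p - 3 := by omega
  have e4 : ((p : ℤ) - 1) * (p ^ 3 + 3 * p + 3 + p * ((p - 2 : ℕ) : ℤ)) =
      ((p : ℤ) - 1) * (p ^ 3 + p ^ 2 + p + 3) := by
    rw [Nat.cast_sub (by omega)]
    push_cast
    ring
  rwa [e3, e4] at h2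

/-- The group of the target number `p - 1`. -/
theorem Facts.van_pred (F : K.Facts b0 h14) (hp : 11 ≤ p) {s : ℕ}
    (hs : s = 2 * (p - 1) * (p - 1) + 1) :
    K.Van s (((p : ℤ) - 1) * (p ^ 3 + p ^ 2 + 2 * p)) := by
  have hpp : 11 * p ≤ p ^ 2 := by rw [sq]; exact Nat.mul_le_mul_right p hp
  have h1 : K.Van (7 + 2 * (p ^ 2 - 2 * p - 2)) (((p : ℤ) - 1) * (3 * p ^ 2 + 4 * p +
      p * ((p ^ 2 - 2 * p - 2 : ℕ) : ℤ))) :=
    iter_step (P := fun j => K.Van (7 + 2 * j) (((p : ℤ) - 1) * (3 * p ^ 2 + 4 * p +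
      p * (j : ℤ)))) (p ^ 2 - 2 * p - 2) (by simpa using F.gamma)
      fun j hj h => F.gamma_step j (by omega) h
  have e0 : ((p ^ 2 - 2 * p - 2 : ℕ) : ℤ) = (p : ℤ) ^ 2 - 2 * p - 2 := by
    rw [Nat.cast_sub (by omega), Nat.cast_sub (by omega)]
    push_cast
    ring
  have e1 : 7 + 2 * (p ^ 2 - 2 * p - 2) = s := by
    zify [show 1 ≤ p by omega] at hs ⊢
    rw [hs, e0]
    ring
  have e2 : ((p : ℤ) - 1) * (3 * p ^ 2 + 4 * p + p * ((p ^ 2 - 2 * p - 2 : ℕ) : ℤ)) =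
      ((p : ℤ) - 1) * (p ^ 3 + p ^ 2 + 2 * p) := by
    rw [e0]
    ring
  rwa [e1, e2] at h1

lemma Wn4 (p : ℕ) : Wn p 4 = p ^ 3 + p ^ 2 + p + 1 := by
  simp [Wn, Finset.sum_range_succ]
  ring

/-- The targets of the differentials on `v_4`. -/
theorem Facts.tgt (F : K.Facts b0 h14) (hp : 11 ≤ p) (k : ℕ) (hk : 2 ≤ k) (hkp : k ≠ p) :
    StabVan p (2 * (p - 1) * k + 1) (Wn p 4 + k) := by
  have hW : ((Wn p 4 : ℕ) : ℤ) = p ^ 3 + p ^ 2 + p + 1 := by rw [Wn4]; push_cast; ring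
  refine K.stabVan_of_van ?_
  by_cases h2 : k = 2
  · subst h2
    have h1 := F.van_two hp
    have e1 : 4 * p - 3 = 2 * (p - 1) * 2 + 1 := by omega
    have e2 : ((p : ℤ) - 1) * (p ^ 3 + p ^ 2 + p + 3) = ((p : ℤ) - 1) * (Wn p 4 + (2 : ℕ)) := by
      rw [hW]; push_cast; ring
    rwa [e1, e2] at h1
  by_cases h3 : k + 1 = p
  · obtain rfl : k = p - 1 := by omega
    have h1 := F.van_pred hp rfl
    have e2 : ((p : ℤ) - 1) * (p ^ 3 + p ^ 2 + 2 * p) =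
        ((p : ℤ) - 1) * (Wn p 4 + ((p - 1 : ℕ) : ℤ)) := by
      rw [hW, Nat.cast_sub (by omega)]; push_cast; ring
    rwa [e2] at h1
  have h4 := F.bound (2 * (p - 1) * k + 1) (p ^ 3 + p ^ 2 + p + 1 + k) fun x hs hWx => by
    have h5 := H327.enum_v4 p k hp (by omega) x (by
      rw [hs]
      zify [show 1 ≤ p by omega]
      ring) hWx
    rcases h5 with ⟨h, -⟩ | ⟨h, -⟩ | ⟨h, -⟩ | ⟨h, -⟩ <;> omega
  have e4 : (((p ^ 3 + p ^ 2 + p + 1 + k : ℕ)) : ℤ) = (Wn p 4 : ℤ) + k := by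
    rw [hW]; push_cast; ring
  rwa [e4] at h4

lemma sum_range4 (A : Finset ℕ) (hA : A ⊆ Finset.range 4) (f : ℕ → ℤ) :
    ∑ a ∈ A, f a = (if 0 ∈ A then 1 else 0 : ℕ) * f 0 + (if 1 ∈ A then 1 else 0 : ℕ) * f 1 +
      (if 2 ∈ A then 1 else 0 : ℕ) * f 2 + (if 3 ∈ A then 1 else 0 : ℕ) * f 3 := by
  have h1 : ∑ a ∈ A, f a = ∑ a ∈ Finset.range 4, if a ∈ A then f a else 0 := by
    rw [← Finset.sum_filter]
    congr 1
    ext a
    simp only [Finset.mem_filter]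
    exact ⟨fun h => ⟨hA h, h⟩, fun h => h.2⟩
  rw [h1]
  simp only [Finset.sum_range_succ, Finset.sum_range_zero]
  split_ifs <;> simp

/-- The vanishing statements for the unital products. -/
theorem Facts.prodVan [Fact p.Prime] (F : K.Facts b0 h14) (hp : 11 ≤ p) {h : ℕ} (hh : 1 ≤ h)
    (hh4 : h ≤ 4) : ProdVan p h := by
  refine prodVan_of_stab hh (by omega) (by omega) fun A B hA hB hA' hB' k hk s hs => ?_
  refine K.stabVan_of_van ?_
  have hA4 : A ⊆ Finset.range 4 := hA.trans (Finset.range_subset_range.2 hh4)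
  have hB4 : B ⊆ Finset.range 4 := hB.trans (Finset.range_subset_range.2 hh4)
  have hAc : A.card ≤ 4 := by simpa using Finset.card_le_card hA4
  have hBc : B.card ≤ 4 := by simpa using Finset.card_le_card hB4
  have hA1 := hA'.card_pos
  have hB1 := hB'.card_pos
  obtain ⟨n1, h1, hn1⟩ : ∃ n1 : ℕ, n1 = (if 1 ∈ A then 1 else 0) + (if 1 ∈ B then 1 else 0) ∧
    n1 ≤ 2 := ⟨_, rfl, by split_ifs <;> simp⟩
  obtain ⟨n2, h2, hn2⟩ : ∃ n2 : ℕ, n2 = (if 2 ∈ A then 1 else 0) + (if 2 ∈ B then 1 else 0) ∧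
    n2 ≤ 2 := ⟨_, rfl, by split_ifs <;> simp⟩
  obtain ⟨n3, h3, hn3⟩ : ∃ n3 : ℕ, n3 = (if 3 ∈ A then 1 else 0) + (if 3 ∈ B then 1 else 0) ∧
    n3 ≤ 2 := ⟨_, rfl, by split_ifs <;> simp⟩
  have hsum : ∑ a ∈ A, (Wn p a : ℤ) + ∑ b ∈ B, (Wn p b : ℤ) + k =
      ((k + n1 + n2 * (1 + p) + n3 * (1 + p + p ^ 2) : ℕ) : ℤ) := by
    rw [sum_range4 A hA4, sum_range4 B hB4, h1, h2, h3]
    simp only [Wn, Finset.sum_range_succ, Finset.sum_range_zero]
    push_cast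
    ring
  rw [hsum]
  refine F.bound _ _ fun x hxs hxW => ?_
  refine H327.no_mon_low p k n1 n2 n3 ((A.card : ℤ) + B.card) hp hk hn1 hn2 hn3 (by omega)
    (by omega) x ?_ hxW
  rw [hxs]
  zify [show 1 ≤ p by omega, show 1 ≤ A.card + B.card by omega] at hs
  linarith

/-- The vanishing statements for the lifts of `v_1`, `v_2`, `v_3`. -/
theorem Facts.liftVan [Fact p.Prime] (F : K.Facts b0 h14) (hp : 11 ≤ p) {h : ℕ} (hh : 1 ≤ h)
    (hh3 : h ≤ 3) : LiftVan p h := by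
  refine liftVan_of_stab hh fun k hk => K.stabVan_of_van ?_
  obtain ⟨n1, n2, n3, hn1, hn2, hn3, hW⟩ : ∃ n1 n2 n3 : ℕ, n1 ≤ 2 ∧ n2 ≤ 2 ∧ n3 ≤ 2 ∧
      (Wn p h : ℤ) + k = ((k + n1 + n2 * (1 + p) + n3 * (1 + p + p ^ 2) : ℕ) : ℤ) := by
    obtain rfl | rfl | rfl : h = 1 ∨ h = 2 ∨ h = 3 := by omega
    · exact ⟨1, 0, 0, by norm_num, by norm_num, by norm_num, by
        simp [Wn]; ring⟩
    · exact ⟨0, 1, 0, by norm_num, by norm_num, by norm_num, by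
        simp [Wn, Finset.sum_range_succ]; ring⟩
    · exact ⟨0, 0, 1, by norm_num, by norm_num, by norm_num, by
        simp [Wn, Finset.sum_range_succ]; ring⟩
  rw [hW]
  refine F.bound _ _ fun x hxs hxW => ?_
  refine H327.no_mon_low p k n1 n2 n3 0 hp hk hn1 hn2 hn3 (by norm_num) (by norm_num) x ?_ hxW
  rw [hxs]
  zify [show 1 ≤ p by omega]
  ring

/-- The vanishing statements for the survival of `v_4`. -/
theorem Facts.v4Van (F : K.Facts b0 h14) (hp : 11 ≤ p) : V4Van p where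
  tgt k hk hkp := F.tgt hp k hk hkp
  lift k hk := by
    have h1 := F.bound (2 * (p - 1) * k + 6) (2 * p ^ 2 + 4 * p + 1 + 0 + k) fun x hxs hxW =>
      no_mon_lift p k 0 hp hk (by norm_num) x (by
        rw [hxs]
        zify [show 1 ≤ p by omega]
        ring) hxW
    refine K.stabVan_of_van ?_
    have e : (((2 * p ^ 2 + 4 * p + 1 + 0 + k : ℕ)) : ℤ) = 2 * (p : ℤ) ^ 2 + 4 * p + 1 + k := by
      push_cast; ring
    rwa [e] at h1
  alpha k := by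
    refine K.stabVan_of_van ?_
    rcases Nat.eq_zero_or_pos k with rfl | hk
    · have h1 := F.beta
      have e : 2 * (p : ℤ) ^ 2 + 4 * p + 2 = 2 * (p : ℤ) ^ 2 + 4 * p + 2 + (0 : ℕ) := by simp
      rwa [e] at h1
    · have h1 := F.bound (2 * (p - 1) * k + 6) (2 * p ^ 2 + 4 * p + 1 + 1 + k) fun x hxs hxW =>
        no_mon_lift p k 1 hp hk le_rfl x (by
          rw [hxs]
          zify [show 1 ≤ p by omega]
          ring) hxW
      have e : (((2 * p ^ 2 + 4 * p + 1 + 1 + k : ℕ)) : ℤ) = 2 * (p : ℤ) ^ 2 + 4 * p + 2 + k := by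
        push_cast; ring
      rwa [e] at h1

/-- Surjectivity of the multiplication by `b^{p²-p-2}`. -/
theorem Facts.algOnto [Fact p.Prime] (F : K.Facts b0 h14) (hp : 11 ≤ p) {b : Cob Laz 2}
    (hb : Cob.IsWt ((p : ℤ) * ((p : ℤ) - 1)) b) (hdb : Cob.d 2 b = 0) (hfb : K.f 2 b = b0) :
    AlgOnto p 4 b ((p : ℤ) * ((p : ℤ) - 1)) 5 (((p : ℤ) - 1) * (2 * p ^ 2 + 4 * p + 1))
      (p ^ 2 - p - 3) := by
  have hpp : 11 * p ≤ p ^ 2 := by rw [sq]; exact Nat.mul_le_mul_right p hp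
  have hp' : (11 : ℤ) ≤ p := by exact_mod_cast hp
  obtain ⟨k, hk⟩ : ∃ k, k = p ^ 2 - p - 3 := ⟨_, rfl⟩
  have hkz : (k : ℤ) = (p : ℤ) ^ 2 - p - 3 := by
    rw [hk, Nat.sub_sub, Nat.cast_sub (by omega)]
    push_cast
    ring
  rw [← hk]
  have hdeg : Couple.Mul2.deg ((p : ℤ) * ((p : ℤ) - 1))
      (((p : ℤ) - 1) * (2 * p ^ 2 + 4 * p + 1)) (k + 1) = (p : ℤ) ^ 4 - 1 + p * (p - 1) := by
    rw [Couple.Mul2.deg_eq]
    push_cast
    rw [hkz]
    ring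
  refine K.algOnto_of_ontoN (h := 4) (s := 4) (by norm_num) hb hdb ?_ ?_ ?_ ?_
  · nlinarith [mul_nonneg (show (0 : ℤ) ≤ (p : ℤ) - 11 by linarith) (sq_nonneg (p : ℤ)),
      mul_nonneg (show (0 : ℤ) ≤ (p : ℤ) - 11 by linarith)
        (mul_nonneg (show (0 : ℤ) ≤ p by linarith) (sq_nonneg (p : ℤ))),
      mul_nonneg (show (0 : ℤ) ≤ (p : ℤ) - 11 by linarith) (show (0 : ℤ) ≤ (p : ℤ) by linarith)]
  · rw [hdeg]
    have h5 : (p : ℤ) ^ (4 + 1) = p * p ^ 4 := by ring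
    have h4 : (p : ℤ) ^ 2 ≤ p ^ 4 := pow_le_pow_right₀ (by linarith) (by norm_num)
    rw [h5]
    nlinarith [mul_nonneg (show (0 : ℤ) ≤ (p : ℤ) - 11 by linarith)
      (show (0 : ℤ) ≤ (p : ℤ) ^ 4 by positivity)]
  · rw [hdeg]
    refine algVan_line (by norm_num) ?_
    rintro ⟨-, h⟩
    have e : (p : ℤ) ^ 4 - 1 + p * (p - 1) - ((p : ℤ) ^ 4 - 1) = ((p : ℤ) - 1) * p := by ring
    rw [e] at h
    have h1 := le_of_mul_le_mul_left h (by linarith)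
    push_cast at h1
    rw [hkz] at h1
    nlinarith
  · refine K.ontoN_of_ontoR ?_ ?_ k fun j hj => ?_
    · rw [← K.f_d, hdb, map_zero]
    · exact K.f_wt hb
    · have h1 := F.kappa_onto j (by omega)
      rw [hfb]
      rw [Couple.Mul2.deg_eq]
      have e : ((p : ℤ) - 1) * (2 * p ^ 2 + 4 * p + 1) + (j : ℤ) * ((p : ℤ) * (p - 1)) =
        ((p : ℤ) - 1) * (2 * p ^ 2 + 4 * p + 1 + p * j) := by ring
      rwa [e]

end Cmp

end Vale.Agent.P257.H545
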