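import Vale.Agent.P257.H545.Cmp

/-!
# P257, package A5 (helper545): the `k = 1` step, algebraic part

If `T` is a cocycle modulo `I_h`, `ξ` a cochain of degree `1` and
`T ∪ ξ = v_h A + d B` modulo `I_h`, then `T` is a coboundary modulo `I_h`, provided multiplication
by the image of `ξ` is injective in the cohomology of the dual reduced powers in the degree of `T`.
-/

open MvPolynomial

namespace Vale.Agent.P257.H545

open Vale.Agent.P251 Vale.Agent.P251.F Vale.Agent.P257.H314 Vale.Agent.P257.H712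
open Vale.Agent.P251.S hiding IC

theorem pr_mem_IC {p h : ℕ} [Fact p.Prime] {s : ℕ} (w : ℤ) {x : Cob Laz s} (hx : x ∈ IC p h s) :
    Cob.pr Laz s w x ∈ IC p h s := by
  have h1 := Cob.pr_comm (Cob.mapRing (Ideal.Quotient.mk (Laz.I p h)) s).toAddMonoidHom
    (fun w x hx => hx.mapRing (isLawHom_mkI p h)) w x
  change Cob.pr (QI p h) s w (Cob.mapRing _ s x) = Cob.mapRing _ s (Cob.pr Laz s w x) at h1
  rw [← mapRing_eq_zero_iff, ← h1, (mapRing_eq_zero_iff x).2 hx, map_zero]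

theorem C_v_mem_IC (p h s : ℕ) : (C (Laz.v p h) : Cob Laz s) ∈ IC p (h + 1) s :=
  Ideal.mem_map_of_mem _ (vv_mem_Ih (Nat.lt_succ_self h) _)

namespace Cmp

variable {p : ℕ} (K : Cmp p)

/-- Right multiplication by `η` (degree `1`, weight `v`) is injective on `H^{s+1}_w`. -/
def InjR (η : K.X 1) (v : ℤ) (s : ℕ) (w : ℤ) : Prop :=
  ∀ T : K.X (s + 1), K.IsWt w T → K.d (s + 1) T = 0 →
    ∀ B : K.X (s + 1), K.IsWt (w + v) B → K.d (s + 1) B = K.cup (a := s + 1) (b := 1) T η →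
      ∃ y : K.X s, K.IsWt w y ∧ K.d s y = T

variable {K} in
theorem InjR.neg {η : K.X 1} {v : ℤ} {s : ℕ} {w : ℤ} (H : K.InjR η v s w) :
    K.InjR (-η) v s w := by
  intro T hT hdT B hB hdB
  refine H T hT hdT (-B) (K.neg_wt hB) ?_
  rw [map_neg, hdB, K.cup_neg, neg_neg]

variable [Fact p.Prime]

/-- The `k = 1` step, algebraic part. -/
theorem exists_of_cup {h s : ℕ} {v w : ℤ} {ξ : Cob Laz 1} (hξ : Cob.IsWt v ξ)
    (hinj : K.InjR (K.f 1 ξ) v s w) (hw : w < (p : ℤ) ^ (h + 1) - 1)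
    (hv : AlgVan p h (s + 1) (w - ((p ^ h : ℤ) - 1)))
    {T : Cob Laz (s + 1)} (hT : Cob.IsWt w T) (hdT : Cob.d (s + 1) T ∈ IC p h (s + 2))
    {A : Cob Laz (s + 2)} {B : Cob Laz (s + 1)}
    (hAB : Cob.cup (a := s + 1) (b := 1) T ξ - C (Laz.v p h) * A - Cob.d (s + 1) B ∈
      IC p h (s + 2)) :
    ∃ y : Cob Laz s, Cob.IsWt w y ∧ T - Cob.d s y ∈ IC p h (s + 1) := by
  have h1 : Cob.cup (a := s + 1) (b := 1) T ξ - Cob.d (s + 1) B ∈ IC p (h + 1) (s + 2) := by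
    have h2 : C (Laz.v p h) * A ∈ IC p (h + 1) (s + 2) := Ideal.mul_mem_right _ _ (C_v_mem_IC p h _)
    have h3 := add_mem (IC_mono hAB) h2
    have h4 : Cob.cup (a := s + 1) (b := 1) T ξ - C (Laz.v p h) * A - Cob.d (s + 1) B +
      C (Laz.v p h) * A = Cob.cup (a := s + 1) (b := 1) T ξ - Cob.d (s + 1) B := by ring
    rwa [h4] at h3
  have h5 := pr_mem_IC (w + v) h1
  rw [map_sub, Cob.pr_eq_self (Cob.IsWt.cup (a := s + 1) (b := 1) hT hξ), Cob.pr_d] at h5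
  have h6 := K.f_IC h5
  rw [map_sub, K.f_d, sub_eq_zero, K.f_cup (a := s + 1) (b := 1)] at h6
  obtain ⟨y, hy, hyT⟩ := hinj _ (K.f_wt hT) (by rw [← K.f_d, K.f_IC hdT]) _
    (K.f_wt (Cob.isWt_pr (w + v) B)) h6.symm
  exact K.inj_succ hw hv hT hdT hy hyT

end Cmp

end Vale.Agent.P257.H545
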