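import Vale.Agent.P257.H545.StepOne
import Vale.Agent.P257.H766.NPack
import Vale.Agent.P257.Main.Glue

/-!
# P257 (helper545): the `k = 1` step, in the form used by the main theorem
-/

open CategoryTheory MonoidalCategory Limits Pretriangulated MonObj

universe v u

namespace Vale.Agent.P257.H545

open Vale.Agent.P251 Vale.Agent.P251.T Vale.Agent.P257.H314

/-- The `k = 1` step. -/
theorem stepInput {p : ℕ} (hp : p.Prime) (h11 : 11 ≤ p) (hF : ∀ [Fact p.Prime], FactsP p) :
    Main.StepInput.{v, u} p := by
  have : Fact p.Prime := ⟨hp⟩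
  intro T _ _ _ _ _ _ _ _ _ _ _ _ _ _ D U C₀ iC₀ hS V i H
  exact step1 U h11 (hF.facts.prodVan h11 (by norm_num) le_rfl)
    (fun F q hq => H766.exists_npack F q hq) hS H

end Vale.Agent.P257.H545
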