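import Vale.Agent.P257.H545.Leib
import Vale.Agent.P257.H545.CupRing1
import Vale.Agent.P257.H712.Survive

/-!
# P257 (helper545): preparations for the `k = 1` step
-/

open CategoryTheory MonoidalCategory Limits Pretriangulated MonObj

set_option linter.unusedSectionVars false

universe v u

namespace Vale.Agent.P257.H545

section Couples

open Vale.Agent.P251.S Vale.Agent.P257.H712

/-- (P4) An element which dies in filtration `b` has a boundary as its class. -/
theorem isCobdy_of_proj_eq_zero {C : Couple.{u, v}} {b t : ℕ} (hb : 1 ≤ b) (hbt : b ≤ t + 1)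
    (hbt' : b ≤ t) {m : ℤ} (c : C.D (t + 1) m) (hc : C.proj m hbt c = 0)
    (hv : ∀ s, b ≤ s + 1 → s + 1 < t → C.Van s (m + 1)) : C.IsCobdy (C.j (t + 1) m c) := by
  have key : ∀ a (hab : b ≤ a) (hat : a ≤ t), C.proj m (show a ≤ t + 1 by omega) c = 0 := by
    intro a hab
    induction a, hab using Nat.le_induction with
    | base => intro _; exact hc
    | succ a hab ih =>
      intro hat
      have h0 := ih (by omega)
      obtain ⟨s, rfl⟩ : ∃ s, a = s + 1 := ⟨a - 1, by omega⟩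
      have h1 : C.i (s + 1) m (C.proj m (show s + 1 + 1 ≤ t + 1 by omega) c) = 0 := by
        rw [C.i_proj m (show s + 1 + 1 ≤ t + 1 by omega) c]
        exact h0
      obtain ⟨z, hz⟩ := C.exact_i (s + 1) (m + 1) m rfl _ h1
      have hcoc : C.IsCocycle z := by
        intro l hl
        obtain rfl : l = m := by linarith
        rw [C.d_apply, hz, ← C.i_proj _ (show s + 1 + 1 + 1 ≤ t + 1 by omega) c, C.j_i]
      obtain ⟨z', hz'⟩ := hv s hab (by omega) z hcoc
      rw [← hz, ← hz', C.d_apply, C.k_j]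
  have h2 : C.i t m c = 0 := by
    have := key t hbt' le_rfl
    rwa [C.proj_succ m (le_refl t), C.proj_self] at this
  obtain ⟨z, hz⟩ := C.exact_i t (m + 1) m rfl _ h2
  exact ⟨z, by rw [C.d_apply, hz]⟩

end Couples

section Alg

open Vale.Agent.P251 Vale.Agent.P251.F Vale.Agent.P257.H314

variable {N : Type} [CommRing N] [LawRing N]

/-- `d (x ∪ y) = d x ∪ y` for a cocycle `y` of degree `1`. -/
theorem d_cup_one {a : ℕ} (x : Cob N a) {y : Cob N 1} (hy : Cob.d 1 y = 0) :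
    Cob.d (a + 1) (Cob.cup (a := a) (b := 1) x y) =
      Cob.cup (a := a + 1) (b := 1) (Cob.d a x) y := by
  refine Cob.ext_ev fun B _ c => ?_
  change Chain N (a + 2) B at c
  have hy' : ∀ c' : Chain N 2 B, ∑ j : Fin 3, ((-1 : ℤ) ^ (j : ℕ)) • Cob.ev (c'.res j.succAbove) y
      = 0 := fun c' => by rw [← Cob.ev_d, hy, map_zero]
  have h1 : Cob.ev c (Cob.d (a + 1) (Cob.cup (a := a) (b := 1) x y)) =
      ∑ i : Fin (a + 1 + 2), ((-1 : ℤ) ^ (i : ℕ)) •
        (Cob.ev ((c.res (Fin.succAbove (n := a + 2) i)).res (Cob.front a 1)) x *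
          Cob.ev ((c.res (Fin.succAbove (n := a + 2) i)).res (Cob.back a 1)) y) := by
    rw [Cob.ev_d]
    refine Finset.sum_congr rfl fun i _ => ?_
    rw [Cob.ev_cup]
  have h2 : Cob.ev c (Cob.cup (a := a + 1) (b := 1) (Cob.d a x) y) =
      ∑ i : Fin (a + 1 + 1), ((-1 : ℤ) ^ (i : ℕ)) •
        (Cob.ev ((c.res (Cob.front (a + 1) 1)).res (Fin.succAbove (n := a + 1) i)) x *
          Cob.ev (c.res (Cob.back (a + 1) 1)) y) := by
    rw [Cob.ev_cup (a := a + 1) (b := 1) c (Cob.d a x) y, Cob.ev_d, Finset.sum_mul]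
    refine Finset.sum_congr rfl fun i _ => ?_
    rw [smul_mul_assoc]
  have h3 := hy' (c.res (Cob.back a 2))
  rw [Fin.sum_univ_succ] at h3
  refine h1.trans ((Fin.sum_univ_add _).trans (Eq.trans ?_
    (h2.trans (Fin.sum_univ_castSucc _)).symm))
  congr 1
  · refine Finset.sum_congr rfl fun i _ => ?_
    rw [Chain.res_res, Chain.res_res, Chain.res_res]
    have e1 : (fun j => (Fin.castAdd 2 i).succAbove (Cob.front a 1 j)) =
        fun j => Cob.front (a + 1) 1 (i.castSucc.succAbove j) := by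
      funext j
      ext
      simp only [Cob.front, Fin.succAbove, Fin.lt_def, Fin.val_castSucc, Fin.val_castAdd]
      split_ifs <;> rfl
    have e2 : (fun j => (Fin.castAdd 2 i).succAbove (Cob.back a 1 j)) =
        Cob.back (a + 1) 1 := by
      funext j
      ext
      simp only [Cob.back, Fin.succAbove, Fin.lt_def, Fin.val_castSucc, Fin.val_castAdd]
      rw [if_neg (by omega)]
      simp
      omega
    simp only [Function.comp_def]
    rw [e1, e2]
    rfl
  · have h4 : ∀ j : Fin 2, ((-1 : ℤ) ^ ((Fin.natAdd (a + 1) j : Fin (a + 1 + 2)) : ℕ)) •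
        (Cob.ev ((c.res (Fin.succAbove (n := a + 2) (Fin.natAdd (a + 1) j))).res
            (Cob.front a 1)) x *
          Cob.ev ((c.res (Fin.succAbove (n := a + 2) (Fin.natAdd (a + 1) j))).res
            (Cob.back a 1)) y) =
        ((-1 : ℤ) ^ a) • (Cob.ev (c.res (Cob.front a 2)) x *
          (((-1 : ℤ) ^ ((j.succ : Fin 3) : ℕ)) •
            Cob.ev ((c.res (Cob.back a 2)).res (Fin.succAbove (n := 2) j.succ)) y)) := by
      intro j
      rw [Chain.res_res, Chain.res_res, Chain.res_res]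
      have e1 : (fun i => (Fin.natAdd (a + 1) j : Fin (a + 2 + 1)).succAbove (Cob.front a 1 i)) =
          Cob.front a 2 := by
        funext i
        ext
        simp only [Cob.front, Fin.succAbove, Fin.lt_def, Fin.val_castSucc, Fin.val_natAdd]
        rw [if_pos (by omega)]
        rfl
      have e2 : (fun i => (Fin.natAdd (a + 1) j : Fin (a + 2 + 1)).succAbove (Cob.back a 1 i)) =
          fun i => Cob.back a 2 (j.succ.succAbove i) := by
        funext i
        ext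
        simp only [Cob.back, Fin.succAbove, Fin.lt_def, Fin.val_castSucc, Fin.val_natAdd,
          Fin.val_succ]
        split_ifs <;> simp <;> omega
      simp only [Function.comp_def]
      rw [e1, e2, mul_smul_comm, smul_smul, ← pow_add]
      congr 2
      simp
      ring
    rw [Finset.sum_congr rfl fun j _ => h4 j, ← Finset.smul_sum, ← Finset.mul_sum,
      ← neg_eq_of_add_eq_zero_right h3]
    rw [Chain.res_res, Chain.res_res]
    have e1 : (fun i => Cob.front (a + 1) 1 ((Fin.last (a + 1)).succAbove i)) =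
        Cob.front a 2 := by
      funext i
      ext
      simp only [Cob.front, Fin.succAbove_last, Fin.val_castSucc]
    have e2 : (fun i => Cob.back a 2 ((0 : Fin 3).succAbove i)) = Cob.back (a + 1) 1 := by
      funext i
      ext
      simp only [Cob.back, Fin.succAbove_zero, Fin.val_succ]
      omega
    simp only [Function.comp_def]
    rw [e1, e2]
    simp [pow_succ]

/-- The product of cocycles modulo `I_h` is a cocycle modulo `I_h`. -/
theorem d_cup_one_mem {p h : ℕ} [Fact p.Prime] {s : ℕ} {c : Cob Laz s} {b : Cob Laz 1}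
    (hb : Cob.d 1 b ∈ IC p h 2) (hc : Cob.d s c ∈ IC p h (s + 1)) :
    Cob.d (s + 1) (Cob.cup (a := s) (b := 1) c b) ∈ IC p h (s + 2) := by
  rw [← mapRing_eq_zero_iff, Cob.mapRing_d (isLawHom_mkI p h)]
  rw [← mapRing_eq_zero_iff, Cob.mapRing_d (isLawHom_mkI p h)] at hb hc
  refine (congrArg _ (Cob.mapRing_cup (a := s) (b := 1) (isLawHom_mkI p h) _ _)).trans ?_
  refine (d_cup_one (a := s) _ hb).trans ?_
  rw [hc, Cob.cup, map_zero, zero_mul]

end Alg

section Sph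

open Vale.Agent.P251 Vale.Agent.P251.T Vale.Agent.P251.F Vale.Agent.P251.I
  Vale.Agent.P251.M Vale.Agent.P257.H314 Vale.Agent.P257.H712
open Vale.Agent.P251.S hiding IC

variable {T : Type u} [Category.{v} T] [Preadditive T] [HasZeroObject T]
    [HasShift T ℤ] [∀ n : ℤ, (shiftFunctor T n).Additive] [Pretriangulated T]
    [MonoidalCategory T] [SymmetricCategory T] [TensorTriangulated T]

/-- An endomorphism of the unit acts on `𝟙⟦t⟧` by its shift. -/
lemma unit_act (t : ℤ) (u : 𝟙_ T ⟶ 𝟙_ T) :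
    (((𝟙_ T)⟦t⟧) ◁ u) ≫ (ρ_ ((𝟙_ T)⟦t⟧)).hom = (ρ_ ((𝟙_ T)⟦t⟧)).hom ≫ u⟦t⟧' := by
  have h1 : (tensorSph t (𝟙_ T)).hom = (λ_ ((𝟙_ T)⟦t⟧)).hom := by
    rw [← csh_leftUnitor, unitors_equal]
    rfl
  have h2 := tensorSph_naturality t u
  rw [h1] at h2
  have h3 : (ρ_ ((𝟙_ T)⟦t⟧)).hom = (β_ ((𝟙_ T)⟦t⟧) (𝟙_ T)).hom ≫ (λ_ ((𝟙_ T)⟦t⟧)).hom := by
    rw [braiding_leftUnitor]
  rw [h3, BraidedCategory.braiding_naturality_right_assoc, h2, Category.assoc]

variable [HasCoproducts.{0} T]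

/-- The identification of spheres may be adjusted in the second factor. -/
lemma exists_prodSph {w v w' t k t' : ℤ} (α : (stdEven T).S w ≅ (𝟙_ T)⟦t⟧)
    (β : (stdEven T).S v ≅ (𝟙_ T)⟦k⟧) (hw : w + v = w') (ht : t + k = t')
    (P : (stdEven T).S w' ≅ (𝟙_ T)⟦t'⟧) :
    ∃ β' : (stdEven T).S v ≅ (𝟙_ T)⟦k⟧, prodSph α β' hw ht = P := by
  let e : (𝟙_ T)⟦t'⟧ ≅ (𝟙_ T)⟦t'⟧ := (prodSph α β hw ht).symm ≪≫ P
  let u : 𝟙_ T ≅ 𝟙_ T := (shiftFunctor T t').preimageIso e
  have hu : u.hom⟦t'⟧' = (prodSph α β hw ht).inv ≫ P.hom := (shiftFunctor T t').map_preimage _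
  refine ⟨β ≪≫ (shiftFunctor T k).mapIso u, ?_⟩
  ext1
  have h1 : (α.hom ⊗ₘ (β.hom ≫ u.hom⟦k⟧')) =
      (α.hom ⊗ₘ β.hom) ≫ (((𝟙_ T)⟦t⟧) ◁ u.hom⟦k⟧') := by
    rw [← id_tensorHom, tensorHom_comp_tensorHom, Category.comp_id]
  have h2 : (((𝟙_ T)⟦t⟧) ◁ u.hom⟦k⟧') ≫ (tensorSph k ((𝟙_ T)⟦t⟧)).hom =
      (tensorSph k ((𝟙_ T)⟦t⟧)).hom ≫ (u.hom⟦t⟧')⟦k⟧' := by
    have h3 : (tensorSph k ((𝟙_ T)⟦t⟧)).hom = (csh ((𝟙_ T)⟦t⟧) k (𝟙_ T)).hom ≫
      ((ρ_ ((𝟙_ T)⟦t⟧)).hom)⟦k⟧' := rfl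
    rw [h3, csh_nat_assoc, Category.assoc, ← Functor.map_comp, unit_act, Functor.map_comp]
  have h4 : (u.hom⟦t⟧')⟦k⟧' ≫ (shiftFunctorAdd' T t k t' ht).inv.app (𝟙_ T) =
      (shiftFunctorAdd' T t k t' ht).inv.app (𝟙_ T) ≫ u.hom⟦t'⟧' :=
    (shiftFunctorAdd' T t k t' ht).inv.naturality u.hom
  have h5 : (prodSph α (β ≪≫ (shiftFunctor T k).mapIso u) hw ht).hom =
      (prodSph α β hw ht).hom ≫ u.hom⟦t'⟧' := by
    simp only [prodSph, Iso.trans_hom, Iso.symm_hom, Iso.app_inv, tensorIso_hom,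
      Functor.mapIso_hom, Category.assoc]
    rw [h1, Category.assoc, reassoc_of% h2, h4]
  rw [h5, hu, Iso.hom_inv_id_assoc]

variable {D : MUData T} {U : UnitCof D.R} {V : T} {i : 𝟙_ T ⟶ V}

/-- Realizing cochains, reduced to `V`. -/
lemma realizes_redC {s : ℕ} {w t : ℤ} {α : (stdEven T).S w ≅ (𝟙_ T)⟦t⟧} {c : Cob Laz s}
    {f : (𝟙_ T)⟦t⟧ ⟶ U.cobar.Q (s + 1) (𝟙_ T)} (hf : Realizes D U α c f)
    (hc : Cob.IsWt w c) :
    f ≫ (redC i).app (U.cobar.Q (s + 1) (𝟙_ T)) = α.inv ≫ phiV D U i s w ⟨c, hc⟩ := by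
  rw [(realizes_iff α ⟨c, hc⟩ f).1 hf, phiV_apply, Category.assoc]

end Sph

end Vale.Agent.P257.H545
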