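import Vale.Agent.P257.H820.Leib4
import Vale.Agent.P257.H545.Final
import Vale.Agent.P257.H545.StepPre
import Vale.Agent.P257.H604.Xi

/-!
# P257 (helper545): the `k = 1` step
-/

open CategoryTheory MonoidalCategory Limits Pretriangulated MonObj

set_option linter.unusedSectionVars false

universe v u

namespace Vale.Agent.P257.H545

open Vale.Agent.P251 Vale.Agent.P251.T Vale.Agent.P251.F Vale.Agent.P251.I
  Vale.Agent.P251.M Vale.Agent.P257.H314 Vale.Agent.P257.H712 Vale.Agent.P257.H820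
open Vale.Agent.P251.S hiding IC
open Vale.Agent.P251.B (sphE)

variable {T : Type u} [Category.{v} T] [Preadditive T] [HasZeroObject T]
    [HasShift T ℤ] [∀ n : ℤ, (shiftFunctor T n).Additive] [Pretriangulated T]
    [MonoidalCategory T] [SymmetricCategory T] [TensorTriangulated T] [HasCoproducts.{0} T]
    [MonoidalClosed T] [IsTriangulated T] [HasProducts.{0} T] [StableCat T]

variable {D : MUData T} (U : UnitCof D.R) {p : ℕ} [Fact p.Prime] {C₀ : T} {iC₀ : 𝟙_ T ⟶ C₀}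

/-- Vacuous vanishing: the sparse groups do not meet the range. -/
lemma van_vacuous {V : T} {i : 𝟙_ T ⟶ V} (H : Cyc D p 4 i) (hp : 5 ≤ p) {s₀ : ℕ} {W₀ : ℤ} {s : ℕ}
    {m : ℤ} (hm : m = 2 * (((p : ℤ) - 1) * W₀) - s₀) (h1 : s₀ < s + 1)
    (h2 : s + 1 < s₀ + 2 * (p - 1)) : (CV U V).Van s m := by
  refine van_of_sparse U H hp hm fun k hk => ?_
  exfalso
  have hp' : (5 : ℤ) ≤ p := by exact_mod_cast hp
  have h3 : (0 : ℤ) < 2 * ((p : ℤ) - 1) * k := by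
    have : (s₀ : ℤ) < ((s + 1 : ℕ) : ℤ) := by exact_mod_cast h1
    linarith
  have h4 : 2 * ((p : ℤ) - 1) * k < 2 * ((p : ℤ) - 1) * 1 := by
    have : ((s + 1 : ℕ) : ℤ) < s₀ + 2 * ((p : ℤ) - 1) := by
      have := h2
      zify [show 1 ≤ p by omega] at this
      push_cast at this ⊢
      linarith
    linarith
  have h5 : (0 : ℤ) < k := by
    by_contra h
    have : 2 * ((p : ℤ) - 1) * k ≤ 0 := mul_nonpos_of_nonneg_of_nonpos (by linarith) (by linarith)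
    linarith
  have h6 : k < 1 := lt_of_mul_lt_mul_left h4 (by linarith)
  omega

/-- (P5) The `k = 1` step. -/
theorem step1 (hp : 11 ≤ p) (hP : ProdVan p 4)
    (hpack : ∀ (F : UFib D.R) (q : ℕ), 1 ≤ q → Nonempty (NPack F q))
    (hS : AlgStep1 p) {V : T} {i : 𝟙_ T ⟶ V} (H : IsST D p iC₀ 4 i) : Step1 p U i := by
  intro y hy
  have hp' : (11 : ℤ) ≤ p := by exact_mod_cast hp
  have hc1 : ((p - 1 : ℕ) : ℤ) = (p : ℤ) - 1 := by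
    rw [Nat.cast_sub (by omega), Nat.cast_one]
  obtain ⟨m⟩ := H.exists_uprod hP
  obtain ⟨ξ, hξw, hξ1, hξ2, -⟩ := H604.exists_xi (p := p) (h := 4) (by norm_num)
  rw [show (p : ℤ) ^ (4 + 1) - (p : ℤ) ^ 4 = ((p : ℤ) - 1) * p ^ 4 by ring] at hξw
  obtain ⟨r, hr⟩ : ∃ r, r = 2 * (p - 1) := ⟨_, rfl⟩
  have hr' : (r : ℤ) = 2 * ((p : ℤ) - 1) := by rw [hr]; push_cast [hc1]; ring
  obtain ⟨w1, hw1⟩ : ∃ w, w = ((p : ℤ) - 1) * p ^ 4 := ⟨_, rfl⟩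
  obtain ⟨wT, hwT⟩ : ∃ w, w = ((p : ℤ) - 1) * (Wn p 4 + 1) := ⟨_, rfl⟩
  obtain ⟨wG, hwG⟩ : ∃ w, w = ((p : ℤ) - 1) * (p ^ 4 + 1) := ⟨_, rfl⟩
  have hW4 : ((p : ℤ) - 1) * Wn p 4 = (p : ℤ) ^ 4 - 1 := by rw [Wn_four]; ring
  have hwT' : wT = (p : ℤ) ^ 4 - 1 + (p - 1) := by rw [hwT, mul_add, hW4]; ring
  have hS' := hS ξ hξw hξ1
  rw [← hwT] at hS'
  rw [← hw1] at hξw
  rw [← hr] at hS'
  -- the class `ξ`
  let ζ0 : (𝟙_ T)⟦2 * w1⟧ ⟶ U.cobar.Q 2 (𝟙_ T) := (sphE T w1).inv ≫ D.phi U 1 w1 ⟨ξ, hξw⟩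
  have hζ0 : Realizes D U (sphE T w1) ξ ζ0 := (realizes_iff (sphE T w1) ⟨ξ, hξw⟩ ζ0).2 rfl
  have hζ : (ζ0 ≫ (redC i).app (U.cobar.Q 2 (𝟙_ T))) ≫
      (tensorRight V).map (U.cobar.d 2 (𝟙_ T)) = 0 := by
    rw [realizes_redC hζ0 hξw, Category.assoc, ← phiV_d,
      (Cyc.phiV_ker H.cyc 2 w1 _).2 hξ2, comp_zero]
  -- the class `v₄`
  let v0 : (𝟙_ T)⟦2 * ((p : ℤ) ^ 4 - 1)⟧ ⟶ U.cobar.Q 1 (𝟙_ T) :=
    (sphE T ((p : ℤ) ^ 4 - 1)).inv ≫ D.phi U 0 ((p : ℤ) ^ 4 - 1) (vw p 4 0)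
  have hv0 : Realizes D U (sphE T ((p : ℤ) ^ 4 - 1)) (vw p 4 0).1 v0 :=
    (realizes_iff (sphE T _) (vw p 4 0) v0).2 rfl
  have hv0' : v0 ≫ (redC i).app (U.cobar.Q 1 (𝟙_ T)) = v4Q U p i := Category.assoc _ _ _
  -- `v₄ ξ` is a boundary
  obtain ⟨N, hN⟩ : ∃ N, 2 * ((p : ℤ) ^ 4 - 1) + 2 * w1 = N := ⟨_, rfl⟩
  have hv5 : ∀ x : Cob Laz 1, x - (MvPolynomial.C (Laz.v p 4)) ∈ IC p 4 1 →
      x * ξ - Cob.d 0 (MvPolynomial.C (Laz.v p 5)) ∈ IC p 4 1 := by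
    intro x hx
    have h1 := Ideal.mul_mem_right ξ _ hx
    have h2 := sub_mem h1 hξ1
    have e : (x - MvPolynomial.C (Laz.v p 4)) * ξ - (Cob.d 0 (MvPolynomial.C (Laz.v p 5)) -
        ξ * MvPolynomial.C (Laz.v p 4)) = x * ξ - Cob.d 0 (MvPolynomial.C (Laz.v p 5)) := by
      ring
    exact e ▸ h2
  have e5 : (p : ℤ) ^ 4 - 1 + w1 = (p : ℤ) ^ 5 - 1 := by rw [hw1]; ring
  have hv : ∃ g : (𝟙_ T)⟦N⟧ ⟶ (tensorRight V).obj (U.cobar.Q 1 (𝟙_ T)),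
      (sh (2 * ((p : ℤ) ^ 4 - 1)) (2 * w1) N hN v0 ≫ (csh D.R (2 * w1) (𝟙_ T)).inv ≫
        (D.R ◁ ζ0) ≫ om U 1 (𝟙_ T)) ≫ (redC i).app (U.cobar.Q 2 (𝟙_ T)) =
          g ≫ (tensorRight V).map (U.cobar.d 1 (𝟙_ T)) := by
    have h1 := Realizes.smul0 hv0 hζ0 e5 hN
    have h2 : Cob.IsWt ((p : ℤ) ^ 5 - 1)
        (Cob.map (fun _ => 0 : Fin 1 → Fin (1 + 1)) (vw p 4 0).1 * ξ) := by
      rw [← e5]
      exact ((vw p 4 0).2.map _).mul hξw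
    refine ⟨(prodSph (sphE T ((p : ℤ) ^ 4 - 1)) (sphE T w1) e5 hN).inv ≫
      phiV D U i 0 ((p : ℤ) ^ 5 - 1) (vw p 5 0), ?_⟩
    rw [realizes_redC h1 h2, Category.assoc, ← phiV_d]
    refine congrArg _ (Cyc.phiV_eq H.cyc ?_)
    exact hv5 _ (map_v_sub_mem (p := p) (h := 4) _)
  -- the class `T`
  obtain ⟨m₁, hm₁⟩ : ∃ m₁, m₁ = 2 * ((p : ℤ) ^ 4 - 1) - 1 := ⟨_, rfl⟩
  have hy1 : ∀ (m₂ : ℤ) (hm₂ : m₂ = 2 * ((p : ℤ) ^ 4 - 1) - 1) (r' : ℕ) (hr' : r' = 2 * (p - 1)),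
      ∃ y' : (CV U V).D (r' + 1) m₂,
        ((CV U V).proj m₂ (Nat.le_add_left 1 r') y' = (CV U V).k 0 _ _ (by rw [hm₂]; ring)
          (v4E U p i)) ∧ (Null (CV U V) 1 ((CV U V).j _ _ y') →
            Null (CV U V) 1 ((CV U V).j _ _ y)) := by
    rintro _ rfl _ rfl
    exact ⟨y, hy, id⟩
  obtain ⟨y', hy', hyy⟩ := hy1 m₁ hm₁ r hr
  apply hyy
  clear hyy hy1 hy y
  have ht₁ : m₁ + ((r + 1 : ℕ) : ℤ) = 2 * wT := by
    push_cast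
    rw [hr', hm₁, hwT']
    ring
  obtain ⟨cT, hcT, hcT'⟩ := U.exists_cocycle_qE (𝟙_ T) (tensorRight V) (𝟙_ T) ht₁ _
    ((CV U V).isCocycle_j y')
  obtain ⟨zT, hzT, hdT⟩ := Cyc.exists_cocycle H.cyc (sphE T wT) cT hcT
  let θ : (𝟙_ T)⟦2 * wT⟧ ⟶ U.cobar.Q (r + 2) (𝟙_ T) := (sphE T wT).inv ≫ D.phi U (r + 1) wT zT
  have hθR : Realizes D U (sphE T wT) zT.1 θ := (realizes_iff (sphE T wT) zT θ).2 rfl
  have hθ : (CV U V).j (r + 1) m₁ y' = U.qE (𝟙_ T) (tensorRight V) (𝟙_ T) ht₁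
      (θ ≫ (redC i).app (U.cobar.Q (r + 2) (𝟙_ T))) := by
    rw [← hcT', hzT]
    exact congrArg _ (realizes_redC hθR zT.2).symm
  -- the lift of `ξ`
  obtain ⟨e₁, he₁⟩ : ∃ e₁, e₁ = 2 * w1 - 1 := ⟨_, rfl⟩
  obtain ⟨e₂, he₂⟩ : ∃ e₂, e₂ = 2 * w1 - 2 := ⟨_, rfl⟩
  have he₁' : e₁ + ((1 : ℕ) : ℤ) = 2 * w1 := by rw [he₁]; push_cast; ring
  have he₁₂ : e₁ = e₂ + 1 := by rw [he₁, he₂]; ring
  obtain ⟨b1, hb1⟩ : ∃ b1, b1 = U.qE (𝟙_ T) (tensorRight V) (𝟙_ T) he₁'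
      (ζ0 ≫ (redC i).app (U.cobar.Q 2 (𝟙_ T))) := ⟨_, rfl⟩
  have hb1c : (CV U V).IsCocycle b1 := by
    intro l hl
    have h3 : l + ((1 + 1 : ℕ) : ℤ) = 2 * w1 := by push_cast; omega
    rw [hb1]
    refine (U.d_qE (𝟙_ T) (tensorRight V) (𝟙_ T) hl he₁' h3 _).trans ?_
    exact (congrArg _ hζ).trans (map_zero _)
  have hL2 : Lifts ((CV U V).k 1 e₁ e₂ he₁₂ b1) (r + 2) := by
    refine Lifts.of_van (t := 3) (by norm_num) (by omega) (lifts_two he₁₂ b1 hb1c) ?_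
    intro s hs hs'
    refine van_vacuous U H.cyc (by omega) (s₀ := 2) (W₀ := (p : ℤ) ^ 4) ?_ (by omega) (by omega)
    rw [he₂, hw1]
    push_cast
    ring
  obtain ⟨hr2, c, hc⟩ := hL2
  have ht₂ : e₂ + ((r + 2 : ℕ) : ℤ) = 2 * wG := by
    push_cast
    rw [hr', he₂, hw1, hwG]
    ring
  obtain ⟨cG, hcG, hcG'⟩ := U.exists_cocycle_qE (𝟙_ T) (tensorRight V) (𝟙_ T) ht₂ _
    ((CV U V).isCocycle_j c)
  have eG : (p : ℤ) ^ 4 - 1 + wG = wT + w1 := by rw [hwT', hw1, hwG]; ring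
  have h₂₃ : 2 * ((p : ℤ) ^ 4 - 1) + 2 * wG = 2 * (wT + w1) := by rw [← eG]; ring
  have h₁₃ : 2 * wT + 2 * w1 = 2 * (wT + w1) := by ring
  obtain ⟨β, hβ⟩ := exists_prodSph (sphE T ((p : ℤ) ^ 4 - 1)) (sphE T wG) eG h₂₃
    (prodSph (sphE T wT) (sphE T w1) rfl h₁₃)
  obtain ⟨zG, hzG, hdG⟩ := Cyc.exists_cocycle H.cyc β cG hcG
  let γ : (𝟙_ T)⟦2 * wG⟧ ⟶ U.cobar.Q (r + 3) (𝟙_ T) := β.inv ≫ D.phi U (r + 2) wG zG
  have hγR : Realizes D U β zG.1 γ := (realizes_iff β zG γ).2 rfl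
  have hγ : (CV U V).j (r + 2) e₂ c = U.qE (𝟙_ T) (tensorRight V) (𝟙_ T) ht₂
      (γ ≫ (redC i).app (U.cobar.Q (r + 3) (𝟙_ T))) := by
    rw [← hcG', hzG]
    exact congrArg _ (realizes_redC hγR zG.2).symm
  have ht₃ : e₂ + 2 * ((p : ℤ) ^ 4 - 1) + ((r + 2 : ℕ) : ℤ) = 2 * (wT + w1) := by
    push_cast
    rw [hr', he₂, hwT']
    ring
  have hm₁' : 2 * ((p : ℤ) ^ 4 - 1) = m₁ + 1 := by rw [hm₁]; ring
  have hy'' : (CV U V).proj m₁ (Nat.le_add_left 1 r) y' = (CV U V).k 0 _ m₁ hm₁'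
      (U.qE (𝟙_ T) (tensorRight V) (𝟙_ T)
        (show 2 * ((p : ℤ) ^ 4 - 1) + ((0 : ℕ) : ℤ) = 2 * ((p : ℤ) ^ 4 - 1) by simp)
        (v0 ≫ (redC i).app (U.cobar.Q 1 (𝟙_ T)))) := by
    rw [hy', hv0']
    rfl
  obtain ⟨e, he, hje⟩ := leibnizCV U hpack (r := r) (by omega) i m.m m.left_unit
    (n := 2 * ((p : ℤ) ^ 4 - 1)) (M := 2 * w1) (N := N) ((p - 1) * p ^ 4)
    (by rw [hw1]; push_cast [hc1]; ring) hN v0 ζ0 hζ hv hm₁' y' hy''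
    ht₁ θ hθ he₁' he₁₂ c (by rw [hc, hb1]) ht₂ γ hγ (m₃ := e₂ + 2 * ((p : ℤ) ^ 4 - 1)) rfl ht₃
    h₁₃ h₂₃
  -- its class is a boundary
  have hcob : (CV U V).IsCobdy ((CV U V).j (r + 1 + 1) (e₂ + 2 * ((p : ℤ) ^ 4 - 1)) e) := by
    refine isCobdy_of_proj_eq_zero (b := 2) (t := r + 1) (by norm_num) (by omega) (by omega) e he ?_
    intro s hs hs'
    refine van_vacuous U H.cyc (by omega) (s₀ := 1) (W₀ := p ^ 4 + Wn p 4) ?_ (by omega) (by omega)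
    rw [he₂, hw1, mul_add, hW4]
    push_cast
    ring
  -- the cochains
  obtain ⟨P, hP'⟩ : ∃ P, P = prodSph (sphE T wT) (sphE T w1) rfl h₁₃ := ⟨_, rfl⟩
  have hcup : Cob.IsWt (wT + w1) (Cob.cup (a := r + 1) (b := 1) zT.1 ξ) := zT.2.cup hξw
  have hvG : Cob.IsWt (wT + w1)
      (Cob.map (fun _ => 0 : Fin 1 → Fin (r + 2 + 1)) (vw p 4 0).1 * zG.1) := by
    rw [← eG]
    exact ((vw p 4 0).2.map _).mul zG.2
  have hR1 := Realizes.cup1 hθR hζ0 rfl h₁₃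
  have hR2 := Realizes.smul0 hv0 hγR eG h₂₃
  rw [hβ] at hR2
  have hsum : Cob.IsWt (wT + w1) (Cob.cup (a := r + 1) (b := 1) zT.1 ξ +
      Cob.map (fun _ => 0 : Fin 1 → Fin (r + 2 + 1)) (vw p 4 0).1 * zG.1) :=
    (Cob.wt Laz (r + 2) (wT + w1)).add_mem hcup hvG
  have hred := realizes_redC (i := i) (Realizes.add (s := r + 2) hR1 hR2) hsum
  rw [← hP'] at hred
  have hmem : ∀ x : Cob Laz (r + 2), x - MvPolynomial.C (Laz.v p 4) ∈ IC p 4 (r + 2) →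
      x * zG.1 - MvPolynomial.C (Laz.v p 4) * zG.1 ∈ IC p 4 (r + 2) := by
    intro x hx
    rw [← sub_mul]
    exact Ideal.mul_mem_right _ _ hx
  have hmem' := hmem _ (map_v_sub_mem (p := p) (h := 4) (fun _ => 0 : Fin 1 → Fin (r + 2 + 1)))
  have hdsum : Cob.d (r + 2) (Cob.cup (a := r + 1) (b := 1) zT.1 ξ +
      Cob.map (fun _ => 0 : Fin 1 → Fin (r + 2 + 1)) (vw p 4 0).1 * zG.1) ∈ IC p 4 (r + 3) := by
    rw [map_add]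
    refine add_mem (d_cup_one_mem hξ2 hdT) ?_
    have h1 := d_mem_IC hmem'
    have h2 := d_mul_v_sub_mem (p := p) (h := 4) zG.1
    have h3 : Cob.d (r + 2) zG.1 * MvPolynomial.C (Laz.v p 4) ∈ IC p 4 (r + 3) :=
      Ideal.mul_mem_right _ _ hdG
    have h4 := add_mem h1 (add_mem h2 h3)
    rw [map_sub, sub_add_cancel, mul_comm (MvPolynomial.C (Laz.v p 4)) zG.1,
      sub_add_cancel] at h4
    exact h4
  rw [hred] at hje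
  have hcyc : (P.inv ≫ phiV D U i (r + 2) (wT + w1) ⟨_, hsum⟩) ≫
      (tensorRight V).map (U.cobar.d (r + 3) (𝟙_ T)) = 0 := by
    rw [Category.assoc, ← phiV_d, (Cyc.phiV_ker H.cyc (r + 3) (wT + w1) _).2 hdsum, comp_zero]
  obtain ⟨c', hc'⟩ := U.exists_of_isCobdy (𝟙_ T) (tensorRight V) (𝟙_ T) (s := r + 1) ht₃ _ hcyc
    (by rw [← hje]; exact hcob)
  obtain ⟨zB, hzB⟩ := H.cyc.phi_surj U (r + 1) (wT + w1) (P.hom ≫ c')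
  have hzB' : c' = P.inv ≫ phiV D U i (r + 1) (wT + w1) zB := by
    rw [phiV_apply]
    refine Eq.trans ?_ (congrArg (P.inv ≫ ·) hzB)
    exact (Iso.inv_hom_id_assoc P c').symm
  have hfin : Cob.cup (a := r + 1) (b := 1) zT.1 ξ +
      Cob.map (fun _ => 0 : Fin 1 → Fin (r + 2 + 1)) (vw p 4 0).1 * zG.1 -
      Cob.d (r + 1) zB.1 ∈ IC p 4 (r + 2) := by
    rw [hzB', Category.assoc, ← phiV_d] at hc'
    have h1 := (cancel_epi P.inv).1 hc'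
    have h2 : phiV D U i (r + 2) (wT + w1)
        (⟨_, hsum⟩ - Cob.dwt Laz (r + 1) (wT + w1) zB) = 0 := by
      rw [map_sub, sub_eq_zero]
      exact h1.symm
    exact (Cyc.phiV_ker H.cyc (r + 2) (wT + w1) _).1 h2
  obtain ⟨x, hxw, hx⟩ := hS' zT.1 zT.2 hdT (-zG.1) zB.1 (by
    have h1 := sub_mem hfin hmem'
    have e1 : Cob.cup (a := r + 1) (b := 1) zT.1 ξ +
        Cob.map (fun _ => 0 : Fin 1 → Fin (r + 2 + 1)) (vw p 4 0).1 * zG.1 -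
        Cob.d (r + 1) zB.1 - (Cob.map (fun _ => 0 : Fin 1 → Fin (r + 2 + 1)) (vw p 4 0).1 * zG.1 -
          MvPolynomial.C (Laz.v p 4) * zG.1) =
        Cob.cup (a := r + 1) (b := 1) zT.1 ξ - MvPolynomial.C (Laz.v p 4) * -zG.1 -
        Cob.d (r + 1) zB.1 := by ring
    rw [← e1]
    exact h1)
  -- the conclusion
  have hcob' : (CV U V).IsCobdy ((CV U V).j (r + 1) m₁ y') := by
    have ht₀ : m₁ + 1 + (r : ℤ) = 2 * wT := by rw [← ht₁]; push_cast; ring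
    refine ⟨U.qE (𝟙_ T) (tensorRight V) (𝟙_ T) ht₀
      ((sphE T wT).inv ≫ phiV D U i r wT ⟨x, hxw⟩), ?_⟩
    refine (U.d_qE (𝟙_ T) (tensorRight V) (𝟙_ T) rfl ht₀ ht₁ _).trans ?_
    rw [← hcT', hzT, Category.assoc, ← phiV_d]
    congr 2
    refine (Cyc.phiV_eq H.cyc ?_).symm
    exact hx
  exact (null_of_isCobdy hcob').mono (by omega)

end Vale.Agent.P257.H545
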